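import Vale.Agent.P073.TM923.Defs

/-!
# P073, block TM: dyadic faces, elementary facts
-/

open Set Metric Topology Filter

namespace P073.TM

open Vale.Agent.P073.St (V)
open P073.Net (SizeFn dyc dyo Adm IsTile)

/-! ### open and closed dyadic cubes -/

theorem isOpen_dyo (v : V) (m : ℕ) (z : Fin 3 → ℤ) : IsOpen (dyo v m z) := by
  have : dyo v m z = Set.pi univ
      (fun k => Ioo (v k + z k / 2 ^ m) (v k + (z k + 1) / 2 ^ m)) := by
    ext x
    simp only [dyo, Set.mem_ofPred_eq, Set.mem_pi, mem_univ, true_implies, mem_Ioo]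
  rw [this]
  exact isOpen_set_pi finite_univ fun _ _ => isOpen_Ioo

theorem isClosed_dyc (v : V) (m : ℕ) (z : Fin 3 → ℤ) : IsClosed (dyc v m z) := by
  have : dyc v m z = Set.pi univ
      (fun k => Icc (v k + z k / 2 ^ m) (v k + (z k + 1) / 2 ^ m)) := by
    ext x
    simp only [dyc, Set.mem_ofPred_eq, Set.mem_pi, mem_univ, true_implies, mem_Icc]
  rw [this]
  exact isClosed_set_pi fun _ _ => isClosed_Icc

theorem dyo_sub_dyc (v : V) (m : ℕ) (z : Fin 3 → ℤ) : dyo v m z ⊆ dyc v m z :=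
  fun _ hx k => ⟨(hx k).1.le, (hx k).2.le⟩

theorem dyc_sub_closure (v : V) (m : ℕ) (z : Fin 3 → ℤ) : dyc v m z ⊆ closure (dyo v m z) := by
  have h1 : dyo v m z = Set.pi univ
      (fun k => Ioo (v k + z k / 2 ^ m) (v k + (z k + 1) / 2 ^ m)) := by
    ext x
    simp only [dyo, Set.mem_ofPred_eq, Set.mem_pi, mem_univ, true_implies, mem_Ioo]
  rw [h1, closure_pi_set]
  intro x hx k _
  have hlt : v k + z k / 2 ^ m < v k + ((z k : ℝ) + 1) / 2 ^ m := by
    have : (z k : ℝ) / 2 ^ m < ((z k : ℝ) + 1) / 2 ^ m := by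
      apply div_lt_div_of_pos_right _ (by positivity); linarith
    linarith
  show x k ∈ closure (Ioo (v k + z k / 2 ^ m) (v k + ((z k : ℝ) + 1) / 2 ^ m))
  rw [closure_Ioo hlt.ne]
  exact hx k

theorem isOpen_Λ {Λ : Set V} {ρ : V → ℝ} (hρ : SizeFn Λ ρ) : IsOpen Λ := by
  have : Λ = {x | 0 < ρ x} := by
    ext x
    refine ⟨fun h => hρ.pos x h, fun h => ?_⟩
    by_contra hc
    exact absurd (hρ.off x hc) (not_le.2 h)
  rw [this]
  exact isOpen_lt continuous_const (Net.NC.cont hρ)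

theorem tile_sub {Λ : Set V} {ρ : V → ℝ} (hρ : SizeFn Λ ρ) {v : V} {m : ℕ} {z : Fin 3 → ℤ}
    (ht : IsTile ρ v m z) : dyc v m z ⊆ Λ := by
  intro x hx
  by_contra hcon
  have h1 := ht.1 x hx
  have h2 := hρ.off x hcon
  have h3 : (0:ℝ) < 1 / 2 ^ m := by positivity
  linarith

namespace Face

variable {v x : V} {σ τ : Face} {k : Fin 3}

theorem sd_pos (σ : Face) : 0 < σ.sd := by unfold sd; positivity

theorem lo_apply (v : V) (σ : Face) (k : Fin 3) : σ.lo v k = v k + σ.z k / 2 ^ σ.m := rfl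

theorem hi_of (h : σ.n k = true) : σ.hi v k = σ.lo v k := by
  simp [hi, h]

theorem hi_of' (h : σ.n k = false) : σ.hi v k = v k + (σ.z k + 1) / 2 ^ σ.m := by
  simp only [hi, h, Bool.false_eq_true, if_false, lo, sd]
  ring

theorem hi_of_sd (h : σ.n k = false) : σ.hi v k = σ.lo v k + σ.sd := by
  simp [hi, h]

theorem lo_le_hi (v : V) (σ : Face) (k : Fin 3) : σ.lo v k ≤ σ.hi v k := by
  have := σ.sd_pos
  unfold hi
  split_ifs <;> linarith

theorem mem_cl : x ∈ σ.cl v ↔ ∀ k, σ.lo v k ≤ x k ∧ x k ≤ σ.hi v k := by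
  rw [cl, mem_Icc, Pi.le_def, Pi.le_def]
  exact ⟨fun h k => ⟨h.1 k, h.2 k⟩, fun h => ⟨fun k => (h k).1, fun k => (h k).2⟩⟩

theorem isClosed_cl (v : V) (σ : Face) : IsClosed (σ.cl v) := isClosed_Icc

theorem isCompact_cl (v : V) (σ : Face) : IsCompact (σ.cl v) := isCompact_Icc

theorem convex_cl (v : V) (σ : Face) : Convex ℝ (σ.cl v) := convex_Icc _ _

theorem ri_n (hx : x ∈ σ.ri v) (h : σ.n k = true) : x k = σ.lo v k := by
  have := hx k
  rwa [if_pos h] at this

theorem ri_t (hx : x ∈ σ.ri v) (h : σ.n k = false) : σ.lo v k < x k ∧ x k < σ.hi v k := by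
  have := hx k
  rwa [if_neg (by simp [h])] at this

theorem ri_sub_cl (v : V) (σ : Face) : σ.ri v ⊆ σ.cl v := by
  intro x hx
  rw [mem_cl]
  intro k
  cases h : σ.n k with
  | true =>
    rw [ri_n hx h, hi_of h]
    exact ⟨le_rfl, le_rfl⟩
  | false => exact ⟨(ri_t hx h).1.le, (ri_t hx h).2.le⟩

theorem lo_mem_cl (v : V) (σ : Face) : σ.lo v ∈ σ.cl v :=
  mem_cl.2 fun k => ⟨le_rfl, lo_le_hi v σ k⟩

theorem hi_mem_cl (v : V) (σ : Face) : σ.hi v ∈ σ.cl v :=
  mem_cl.2 fun k => ⟨lo_le_hi v σ k, le_rfl⟩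

/-- the centre of the face -/
noncomputable def ctr (v : V) (σ : Face) : V := fun k => (σ.lo v k + σ.hi v k) / 2

theorem ctr_mem_ri (v : V) (σ : Face) : σ.ctr v ∈ σ.ri v := by
  intro k
  have := σ.sd_pos
  cases h : σ.n k with
  | true => rw [if_pos rfl, ctr, hi_of h]; ring
  | false =>
    rw [if_neg (by simp), ctr, hi_of_sd h]
    constructor <;> linarith

theorem cube_of (h : σ.n k = false) (a : Fin 3 → Bool) : σ.cube a k = σ.z k := by
  simp [cube, h]

theorem cube_of_false (a : Fin 3 → Bool) (h : a k = false) : σ.cube a k = σ.z k := by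
  simp [cube, h]

theorem cube_of_true (h : σ.n k = true) (a : Fin 3 → Bool) (ha : a k = true) :
    σ.cube a k = σ.z k - 1 := by
  simp [cube, h, ha]

theorem div_add_sd (σ : Face) (t : ℝ) : (t + 1) / 2 ^ σ.m = t / 2 ^ σ.m + σ.sd := by
  unfold sd; ring

/-- the closed face is in all the cubes around it -/
theorem cl_sub_cube (v : V) (σ : Face) (a : Fin 3 → Bool) : σ.cl v ⊆ dyc v σ.m (σ.cube a) := by
  intro x hx k
  have hx := mem_cl.1 hx k
  have hs := σ.sd_pos
  rw [div_add_sd]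
  cases h : σ.n k with
  | false =>
    rw [cube_of h]
    rw [hi_of_sd h, lo_apply] at hx
    exact ⟨hx.1, by linarith⟩
  | true =>
    rw [hi_of h, lo_apply] at hx
    cases ha : a k with
    | false => rw [cube_of_false a ha]; exact ⟨hx.1, by linarith⟩
    | true =>
      rw [cube_of_true h a ha]
      have : (((σ.z k - 1 : ℤ) : ℝ)) / 2 ^ σ.m = σ.z k / 2 ^ σ.m - σ.sd := by
        unfold sd; push_cast; ring
      rw [this]
      exact ⟨by linarith, by linarith⟩

open Classical in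
/-- the face of level `m` whose relative interior contains `x` -/
noncomputable def ofPt (v : V) (m : ℕ) (x : V) : Face where
  m := m
  z := fun k => ⌊(x k - v k) * 2 ^ m⌋
  n := fun k => decide ((⌊(x k - v k) * 2 ^ m⌋ : ℝ) = (x k - v k) * 2 ^ m)

theorem mem_ri_ofPt (v : V) (m : ℕ) (x : V) : x ∈ (ofPt v m x).ri v := by
  intro k
  have h2 : (0:ℝ) < 2 ^ m := by positivity
  have h1 := Int.floor_le ((x k - v k) * 2 ^ m)
  have h3 := Int.lt_floor_add_one ((x k - v k) * 2 ^ m)
  cases h : (ofPt v m x).n k with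
  | true =>
    rw [if_pos rfl, lo_apply]
    have h4 : (⌊(x k - v k) * 2 ^ m⌋ : ℝ) = (x k - v k) * 2 ^ m := by
      simpa [ofPt] using h
    show x k = v k + (⌊(x k - v k) * 2 ^ m⌋ : ℝ) / 2 ^ m
    rw [h4]; field_simp; ring
  | false =>
    rw [if_neg (by simp), hi_of' h, lo_apply]
    have h4 : ¬ (⌊(x k - v k) * 2 ^ m⌋ : ℝ) = (x k - v k) * 2 ^ m := by
      simpa [ofPt] using h
    have h5 := lt_of_le_of_ne h1 h4
    show v k + (⌊(x k - v k) * 2 ^ m⌋ : ℝ) / 2 ^ m < x k ∧
      x k < v k + ((⌊(x k - v k) * 2 ^ m⌋ : ℝ) + 1) / 2 ^ m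
    constructor
    · have : (⌊(x k - v k) * 2 ^ m⌋ : ℝ) / 2 ^ m < x k - v k := by rwa [div_lt_iff₀ h2]
      linarith
    · have : x k - v k < ((⌊(x k - v k) * 2 ^ m⌋ : ℝ) + 1) / 2 ^ m := by rwa [lt_div_iff₀ h2]
      linarith

/-- a dyadic number of a coarser level, in units of the finer level -/
theorem coarse_or {m M : ℕ} (h : m ≤ M) (a b : ℤ) :
    (a : ℝ) / 2 ^ m ≤ b / 2 ^ M ∨ ((b : ℝ) + 1) / 2 ^ M ≤ a / 2 ^ m := by
  rcases le_or_gt ((a : ℝ) / 2 ^ m) (b / 2 ^ M) with h1 | h1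
  · exact Or.inl h1
  · exact Or.inr (Net.NC.dyA h h1)

/-- dyadic numbers of level at most `M` which differ are at distance at least `2^{-M}` -/
theorem coarse_gap {m m' M : ℕ} (h : m ≤ M) (h' : m' ≤ M) {a b : ℤ}
    (hab : (a : ℝ) / 2 ^ m < b / 2 ^ m') : (a : ℝ) / 2 ^ m + 1 / 2 ^ M ≤ b / 2 ^ m' := by
  obtain ⟨n, rfl⟩ := Nat.exists_eq_add_of_le h
  have h1 : (a : ℝ) / 2 ^ m = ((a * 2 ^ n : ℤ) : ℝ) / 2 ^ (m + n) := by
    push_cast
    rw [pow_add]
    field_simp
  rw [h1] at hab ⊢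
  have := Net.NC.dyA h' hab
  rw [add_div] at this
  exact this

theorem eq_of_mem_ri (hσ : x ∈ σ.ri v) (hτ : x ∈ τ.ri v) (hm : σ.m = τ.m) : σ = τ := by
  have h2 : (0:ℝ) < 2 ^ τ.m := by positivity
  have key : ∀ k, σ.z k = τ.z k ∧ σ.n k = τ.n k := by
    intro k
    cases h : σ.n k with
    | true =>
      have h1 := ri_n hσ h
      rw [lo_apply, hm] at h1
      cases h' : τ.n k with
      | true =>
        have h3 := ri_n hτ h'
        rw [h1, lo_apply] at h3
        have h4 : (σ.z k : ℝ) / 2 ^ τ.m = τ.z k / 2 ^ τ.m := by linarith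
        rw [div_left_inj' h2.ne'] at h4
        exact ⟨by exact_mod_cast h4, rfl⟩
      | false =>
        exfalso
        have h3 := ri_t hτ h'
        rw [hi_of' h', lo_apply, h1] at h3
        have h4 : (τ.z k : ℝ) / 2 ^ τ.m < σ.z k / 2 ^ τ.m := by linarith [h3.1]
        have h5 : (σ.z k : ℝ) / 2 ^ τ.m < (τ.z k + 1) / 2 ^ τ.m := by linarith [h3.2]
        rw [div_lt_div_iff_of_pos_right h2] at h4 h5
        have h4' : τ.z k < σ.z k := by exact_mod_cast h4
        have h5' : σ.z k < τ.z k + 1 := by exact_mod_cast h5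
        omega
    | false =>
      have h1 := ri_t hσ h
      rw [hi_of' h, lo_apply, hm] at h1
      cases h' : τ.n k with
      | true =>
        exfalso
        have h3 := ri_n hτ h'
        rw [lo_apply] at h3
        rw [h3] at h1
        have h4 : (σ.z k : ℝ) / 2 ^ τ.m < τ.z k / 2 ^ τ.m := by linarith [h1.1]
        have h5 : (τ.z k : ℝ) / 2 ^ τ.m < (σ.z k + 1) / 2 ^ τ.m := by linarith [h1.2]
        rw [div_lt_div_iff_of_pos_right h2] at h4 h5
        have h4' : σ.z k < τ.z k := by exact_mod_cast h4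
        have h5' : τ.z k < σ.z k + 1 := by exact_mod_cast h5
        omega
      | false =>
        have h3 := ri_t hτ h'
        rw [hi_of' h', lo_apply] at h3
        have h4 : (σ.z k : ℝ) / 2 ^ τ.m < (τ.z k + 1) / 2 ^ τ.m := by linarith [h1.1, h3.2]
        have h5 : (τ.z k : ℝ) / 2 ^ τ.m < (σ.z k + 1) / 2 ^ τ.m := by linarith [h1.2, h3.1]
        rw [div_lt_div_iff_of_pos_right h2] at h4 h5
        have h4' : σ.z k < τ.z k + 1 := by exact_mod_cast h4
        have h5' : τ.z k < σ.z k + 1 := by exact_mod_cast h5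
        exact ⟨by omega, rfl⟩
  ext
  · exact hm
  · exact (key _).1
  · exact (key _).2

/-- the cubes of level `m` containing a point of the relative interior are the cubes around -/
theorem exists_cube (hx : x ∈ σ.ri v) {z' : Fin 3 → ℤ} (h : x ∈ dyc v σ.m z') :
    ∃ a, z' = σ.cube a := by
  classical
  have h2 : (0:ℝ) < 2 ^ σ.m := by positivity
  refine ⟨fun k => decide (z' k ≠ σ.z k), ?_⟩
  funext k
  have hk := h k
  cases hn : σ.n k with
  | false =>
    rw [cube_of hn]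
    have h1 := ri_t hx hn
    rw [hi_of' hn, lo_apply] at h1
    have h4 : (σ.z k : ℝ) / 2 ^ σ.m < (z' k + 1) / 2 ^ σ.m := by linarith [h1.1, hk.2]
    have h5 : (z' k : ℝ) / 2 ^ σ.m < (σ.z k + 1) / 2 ^ σ.m := by linarith [h1.2, hk.1]
    rw [div_lt_div_iff_of_pos_right h2] at h4 h5
    have h4' : σ.z k < z' k + 1 := by exact_mod_cast h4
    have h5' : z' k < σ.z k + 1 := by exact_mod_cast h5
    omega
  | true =>
    have h1 := ri_n hx hn
    rw [lo_apply] at h1
    rw [h1] at hk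
    have h4 : (σ.z k : ℝ) / 2 ^ σ.m ≤ (z' k + 1) / 2 ^ σ.m := by linarith [hk.2]
    have h5 : (z' k : ℝ) / 2 ^ σ.m ≤ σ.z k / 2 ^ σ.m := by linarith [hk.1]
    rw [div_le_div_iff_of_pos_right h2] at h4 h5
    have h4' : σ.z k ≤ z' k + 1 := by exact_mod_cast h4
    have h5' : z' k ≤ σ.z k := by exact_mod_cast h5
    by_cases hz : z' k = σ.z k
    · rw [cube_of_false _ (by simp [hz])]; exact hz
    · rw [cube_of_true hn _ (by simp [hz])]; omega

/-- the cubes around the face cover a neighbourhood of its relative interior -/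
theorem eventually_cube (hx : x ∈ σ.ri v) : ∀ᶠ y in 𝓝 x, ∃ a, y ∈ dyc v σ.m (σ.cube a) := by
  classical
  have hs := σ.sd_pos
  have key : ∀ k, ∀ᶠ y : V in 𝓝 x, if σ.n k then σ.lo v k - σ.sd < y k ∧ y k < σ.lo v k + σ.sd
      else σ.lo v k < y k ∧ y k < σ.hi v k := by
    intro k
    have hc : ContinuousAt (fun y : V => y k) x := (continuous_apply k).continuousAt
    cases h : σ.n k with
    | true =>
      have h1 := ri_n hx h
      simp only [if_true]
      exact (hc.eventually_const_lt (by linarith)).and (hc.eventually_lt_const (by linarith))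
    | false =>
      have h1 := ri_t hx h
      simp only [Bool.false_eq_true, if_false]
      exact (hc.eventually_const_lt h1.1).and (hc.eventually_lt_const h1.2)
  filter_upwards [eventually_all.2 key] with y hy
  refine ⟨fun k => decide (y k < σ.lo v k), fun k => ?_⟩
  have hk := hy k
  rw [div_add_sd]
  cases h : σ.n k with
  | false =>
    rw [h] at hk
    simp only [Bool.false_eq_true, if_false] at hk
    rw [cube_of h]
    rw [hi_of_sd h, lo_apply] at hk
    exact ⟨hk.1.le, by linarith [hk.2]⟩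
  | true =>
    rw [h] at hk
    simp only [if_true] at hk
    by_cases hlt : y k < σ.lo v k
    · rw [cube_of_true h _ (by simp [hlt])]
      have : (((σ.z k - 1 : ℤ) : ℝ)) / 2 ^ σ.m = σ.z k / 2 ^ σ.m - σ.sd := by
        unfold sd; push_cast; ring
      rw [this]
      rw [lo_apply] at hk hlt
      exact ⟨by linarith [hk.1], by linarith⟩
    · rw [cube_of_false _ (by simp [hlt])]
      push Not at hlt
      rw [lo_apply] at hk hlt
      exact ⟨hlt, by linarith [hk.2]⟩

end Face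

end P073.TM
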