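import Vale.Agent.P073.TM907.Local
import Vale.Agent.P073.PA691.TMSpec

/-!
# P073, block TM-A: the dyadic Whitney tiling is a `BoxCx`
-/

open Set Metric Topology Filter

namespace P073.TM

open Vale.Agent.P073.St (V)
open P073.Net (SizeFn dyc dyo Adm IsTile)
open P073.PR720 (LF)
open P073.PA691 (IsDy BoxCx SpecTilesCx)

variable {Λ : Set V} {ρ : V → ℝ} {v x : V} {σ τ κ : Face}

theorem bounds_of_sub {m m' : ℕ} {z z' : Fin 3 → ℤ} (h : dyc v m z ⊆ dyc v m' z') (k : Fin 3) :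
    (z' k : ℝ) / 2 ^ m' ≤ z k / 2 ^ m ∧ ((z k : ℝ) + 1) / 2 ^ m ≤ (z' k + 1) / 2 ^ m' := by
  have hle : ∀ j, (z j : ℝ) / 2 ^ m ≤ (z j + 1) / 2 ^ m := fun j => by
    rw [div_le_div_iff_of_pos_right (by positivity)]; linarith
  have h1 : (fun k => v k + z k / 2 ^ m) ∈ dyc v m z := fun j => ⟨le_rfl, by linarith [hle j]⟩
  have h2 : (fun k => v k + ((z k : ℝ) + 1) / 2 ^ m) ∈ dyc v m z :=
    fun j => ⟨by linarith [hle j], le_rfl⟩
  have h3 := (h h1 k).1
  have h4 := (h h2 k).2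
  exact ⟨by linarith, by linarith⟩

/-- the tiles -/
abbrev TT (ρ : V → ℝ) (v : V) : Type := {p : ℕ × (Fin 3 → ℤ) // IsTile ρ v p.1 p.2}

/-- lower corner of a tile -/
noncomputable def tlo (v : V) (p : ℕ × (Fin 3 → ℤ)) : V := fun k => v k + p.2 k / 2 ^ p.1

/-- upper corner of a tile -/
noncomputable def thi (v : V) (p : ℕ × (Fin 3 → ℤ)) : V := fun k => v k + (p.2 k + 1) / 2 ^ p.1

theorem icc_eq (v : V) (p : ℕ × (Fin 3 → ℤ)) : Icc (tlo v p) (thi v p) = dyc v p.1 p.2 := by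
  ext x
  rw [mem_Icc, Pi.le_def, Pi.le_def]
  exact ⟨fun h k => ⟨h.1 k, h.2 k⟩, fun h => ⟨fun k => (h k).1, fun k => (h k).2⟩⟩

theorem tlo_lt_thi (v : V) (p : ℕ × (Fin 3 → ℤ)) (k : Fin 3) : tlo v p k < thi v p k := by
  have : (p.2 k : ℝ) / 2 ^ p.1 < (p.2 k + 1) / 2 ^ p.1 := by
    rw [div_lt_div_iff_of_pos_right (by positivity)]; linarith
  unfold tlo thi
  linarith

theorem tf_lo (v : V) (p : ℕ × (Fin 3 → ℤ)) : (tf p.1 p.2).lo v = tlo v p := rfl

theorem tf_hi (v : V) (p : ℕ × (Fin 3 → ℤ)) : (tf p.1 p.2).hi v = thi v p := by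
  funext k
  rw [Face.hi_of' rfl]
  rfl

namespace IsCell

/-- the lower end of an edge is a vertex -/
theorem lo_vertex (hρ : SizeFn Λ ρ) (hσ : IsCell ρ v σ) :
    ∃ κ, IsCell ρ v κ ∧ κ.IsV ∧ κ.lo v = σ.lo v := by
  obtain ⟨κ, hκ, hx⟩ := exists_cell hρ v (hσ.cl_sub hρ (Face.lo_mem_cl v σ))
  have hV : κ.IsV := fun k => normal_of_lo hκ hσ hx (Face.lo_mem_cl v σ) rfl
  refine ⟨κ, hκ, hV, ?_⟩
  rw [Face.ri_of_V hV, mem_singleton_iff] at hx
  exact hx.symm

/-- the upper end of an edge is a vertex -/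
theorem hi_vertex (hρ : SizeFn Λ ρ) (hσ : IsCell ρ v σ) :
    ∃ κ, IsCell ρ v κ ∧ κ.IsV ∧ κ.lo v = σ.hi v := by
  obtain ⟨κ, hκ, hx⟩ := exists_cell hρ v (hσ.cl_sub hρ (Face.hi_mem_cl v σ))
  have hV : κ.IsV := fun k => normal_of_hi hκ hσ hx (Face.hi_mem_cl v σ) rfl
  refine ⟨κ, hκ, hV, ?_⟩
  rw [Face.ri_of_V hV, mem_singleton_iff] at hx
  exact hx.symm

/-- the points of an edge which are not ends are in the relative interior -/
theorem mem_ri_of_edge {k : Fin 3} (hE : σ.IsE k) (hx : x ∈ σ.cl v) (h1 : x ≠ σ.lo v)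
    (h2 : x ≠ σ.hi v) : x ∈ σ.ri v := by
  have hx := Face.mem_cl.1 hx
  have hoff : ∀ j, j ≠ k → x j = σ.lo v j ∧ σ.hi v j = σ.lo v j := by
    intro j hj
    have h3 := hx j
    rw [Face.hi_of (Face.E_n hE hj)] at h3
    exact ⟨le_antisymm h3.2 h3.1, Face.hi_of (Face.E_n hE hj)⟩
  intro j
  by_cases hj : j = k
  · subst hj
    rw [if_neg (by simp [Face.E_t hE])]
    refine ⟨lt_of_le_of_ne (hx j).1 fun h => h1 ?_, lt_of_le_of_ne (hx j).2 fun h => h2 ?_⟩
    · funext i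
      by_cases hi : i = j
      · rw [hi, h]
      · exact (hoff i hi).1
    · funext i
      by_cases hi : i = j
      · rw [hi, h]
      · rw [(hoff i hi).1, (hoff i hi).2]
  · rw [if_pos (Face.E_n hE hj)]
    exact (hoff j hj).1

end IsCell

theorem Face.S_n {k : Fin 3} (h : σ.IsS k) : σ.n k = true := (h k).2 rfl

theorem Face.S_t {k j : Fin 3} (h : σ.IsS k) (hj : j ≠ k) : σ.n j = false := by
  rw [← Bool.not_eq_true]
  intro h1
  exact hj ((h j).1 h1)

theorem Face.S_cube {k : Fin 3} (h : σ.IsS k) (a : Fin 3 → Bool) :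
    σ.cube a = σ.cube (fun _ => a k) := by
  funext j
  by_cases hj : j = k
  · subst hj; rfl
  · rw [Face.cube_of (Face.S_t h hj), Face.cube_of (Face.S_t h hj)]

/-- the relative interior of a square -/
theorem Face.S_mem_ri {k : Fin 3} (h : σ.IsS k) : x ∈ σ.ri v ↔
    x k = σ.lo v k ∧ ∀ j, j ≠ k → σ.lo v j < x j ∧ x j < σ.hi v j := by
  constructor
  · intro hx
    exact ⟨Face.ri_n hx (Face.S_n h), fun j hj => Face.ri_t hx (Face.S_t h hj)⟩
  · rintro ⟨h1, h2⟩ j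
    by_cases hj : j = k
    · subst hj
      rw [if_pos (Face.S_n h)]; exact h1
    · rw [if_neg (by simp [Face.S_t h hj])]
      exact h2 j hj

/-- the tiles on the two sides of a square -/
theorem sq_lev {k : Fin 3} (hσ : IsCell ρ v σ) (hS : σ.IsS k) {p q : ℕ × (Fin 3 → ℤ)}
    (hp : IsTile ρ v p.1 p.2) (hq : IsTile ρ v q.1 q.2)
    (hps : dyc v σ.m (σ.cube fun _ => true) ⊆ dyc v p.1 p.2)
    (hqs : dyc v σ.m (σ.cube fun _ => false) ⊆ dyc v q.1 q.2) :
    thi v p k = σ.lo v k ∧ tlo v q k = σ.lo v k := by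
  have hs := σ.sd_pos
  have bp := bounds_of_sub hps
  have bq := bounds_of_sub hqs
  have lp := le_of_dyc_sub hps
  have lq := le_of_dyc_sub hqs
  have ct : ((σ.cube (fun _ => true) k : ℤ) : ℝ) = σ.z k - 1 := by
    rw [Face.cube_of_true (Face.S_n hS) _ rfl]; push_cast; ring
  have cf : ((σ.cube (fun _ => false) k : ℤ) : ℝ) = σ.z k := by
    rw [Face.cube_of_false _ rfl]
  have coff : ∀ j, j ≠ k → σ.cube (fun _ => true) j = σ.cube (fun _ => false) j := by
    intro j hj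
    rw [Face.cube_of (Face.S_t hS hj), Face.cube_of (Face.S_t hS hj)]
  have dsd : ∀ t : ℝ, (t + 1) / 2 ^ σ.m = t / 2 ^ σ.m + σ.sd := Face.div_add_sd σ
  have bpk := bp k
  have bqk := bq k
  rw [ct] at bpk
  rw [cf] at bqk
  have e1 : ((σ.z k : ℝ) - 1) / 2 ^ σ.m = σ.z k / 2 ^ σ.m - σ.sd := by unfold Face.sd; ring
  rw [sub_add_cancel, e1] at bpk
  rw [dsd] at bqk
  -- the two tiles are different
  have hne : p ≠ q := by
    intro he
    subst he
    obtain ⟨a, ha⟩ := hσ.2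
    have hsub : dyc v σ.m (σ.cube a) ⊆ dyc v p.1 p.2 := by
      rw [Face.S_cube hS a]
      cases a k with
      | true => exact hps
      | false => exact hqs
    have hc : (tf σ.m (σ.cube a)).ctr v ∈ dyo v σ.m (σ.cube a) := by
      rw [← ri_tf]; exact Face.ctr_mem_ri v _
    obtain ⟨e, -⟩ := tile_eq ha hp hc (hsub (dyo_sub_dyc _ _ _ hc))
    rw [← e, dsd] at bpk bqk
    linarith [bpk.1, bqk.2]
  -- interiors overlap only if equal
  have heq : ∀ {z : Fin 3 → ℤ}, dyc v σ.m z ⊆ dyc v p.1 p.2 → dyc v σ.m z ⊆ dyc v q.1 q.2 →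
      False := by
    intro z h1 h2
    apply hne
    have hle : ∀ j, (z j : ℝ) / 2 ^ σ.m < (z j + 1) / 2 ^ σ.m := fun j => by
      rw [div_lt_div_iff_of_pos_right (by positivity)]; linarith
    -- a common interior point
    have hc : (tf σ.m z).ctr v ∈ dyo v σ.m z := by rw [← ri_tf]; exact Face.ctr_mem_ri v _
    have hcp : (tf σ.m z).ctr v ∈ dyo v p.1 p.2 := by
      intro j
      have b := bounds_of_sub h1 j
      have c := hc j
      exact ⟨by linarith [b.1, c.1], by linarith [b.2, c.2]⟩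
    obtain ⟨e1, e2⟩ := tile_eq hp hq hcp (h2 (dyo_sub_dyc _ _ _ hc))
    exact Prod.ext e1 e2
  constructor
  · -- upper side of `p`
    by_contra hc
    have h1 : σ.lo v k ≤ thi v p k := by
      rw [Face.lo_apply, thi]; linarith [bpk.2]
    have h2 := lt_of_le_of_ne h1 (Ne.symm hc)
    rw [Face.lo_apply, thi] at h2
    have h3 := Face.coarse_gap (M := σ.m) (a := σ.z k) (b := p.2 k + 1) le_rfl lp
      (by push_cast; linarith)
    push_cast at h3
    have h4 : (1:ℝ) / 2 ^ σ.m = σ.sd := rfl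
    rw [h4] at h3
    refine heq (z := σ.cube fun _ => false) (Net.NC.dyc_sub fun j => ?_) hqs
    by_cases hj : j = k
    · subst hj
      rw [cf, dsd]
      exact ⟨by linarith [bpk.1], h3⟩
    · rw [← coff j hj]; exact bp j
  · by_contra hc
    have h1 : tlo v q k ≤ σ.lo v k := by
      rw [Face.lo_apply, tlo]; linarith [bqk.1]
    have h2 := lt_of_le_of_ne h1 hc
    rw [Face.lo_apply, tlo] at h2
    have h3 := Face.coarse_gap (M := σ.m) (a := q.2 k) (b := σ.z k) lq le_rfl (by linarith)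
    have h4 : (1:ℝ) / 2 ^ σ.m = σ.sd := rfl
    rw [h4] at h3
    refine heq (z := σ.cube fun _ => true) hps (Net.NC.dyc_sub fun j => ?_)
    by_cases hj : j = k
    · subst hj
      rw [ct, sub_add_cancel, e1]
      exact ⟨by linarith, by linarith [bqk.2]⟩
    · rw [coff j hj]; exact bq j

/-- the square is the intersection of its two tiles -/
theorem sq_eq {k : Fin 3} (hσ : IsCell ρ v σ) (hS : σ.IsS k) {p q : ℕ × (Fin 3 → ℤ)}
    (hp : IsTile ρ v p.1 p.2) (hq : IsTile ρ v q.1 q.2)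
    (hps : dyc v σ.m (σ.cube fun _ => true) ⊆ dyc v p.1 p.2)
    (hqs : dyc v σ.m (σ.cube fun _ => false) ⊆ dyc v q.1 q.2) :
    σ.cl v = dyc v p.1 p.2 ∩ dyc v q.1 q.2 := by
  obtain ⟨h1, h2⟩ := sq_lev hσ hS hp hq hps hqs
  apply Subset.antisymm
  · intro x hx
    exact ⟨hps (Face.cl_sub_cube v σ _ hx), hqs (Face.cl_sub_cube v σ _ hx)⟩
  · rintro x ⟨hxp, hxq⟩
    obtain ⟨a, ha⟩ := hσ.2
    -- one of the two tiles is a cube around the square
    have hxa : x ∈ dyc v σ.m (σ.cube a) := by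
      have hc : (tf σ.m (σ.cube a)).ctr v ∈ dyo v σ.m (σ.cube a) := by
        rw [← ri_tf]; exact Face.ctr_mem_ri v _
      cases hak : a k with
      | true =>
        have hsub : dyc v σ.m (σ.cube a) ⊆ dyc v p.1 p.2 := by
          rw [Face.S_cube hS a, hak]; exact hps
        obtain ⟨e1, e2⟩ := tile_eq ha hp hc (hsub (dyo_sub_dyc _ _ _ hc))
        rw [e1, e2]; exact hxp
      | false =>
        have hsub : dyc v σ.m (σ.cube a) ⊆ dyc v q.1 q.2 := by
          rw [Face.S_cube hS a, hak]; exact hqs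
        obtain ⟨e1, e2⟩ := tile_eq ha hq hc (hsub (dyo_sub_dyc _ _ _ hc))
        rw [e1, e2]; exact hxq
    refine Face.mem_cl.2 fun j => ?_
    by_cases hj : j = k
    · subst hj
      rw [Face.hi_of (Face.S_n hS)]
      have a1 := (hxp j).2
      have a2 := (hxq j).1
      have b1 : v j + ((p.2 j : ℝ) + 1) / 2 ^ p.1 = σ.lo v j := h1
      have b2 : v j + (q.2 j : ℝ) / 2 ^ q.1 = σ.lo v j := h2
      exact ⟨by linarith, by linarith⟩
    · have h3 := hxa j
      rw [Face.cube_of (Face.S_t hS hj)] at h3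
      rw [Face.hi_of' (Face.S_t hS hj), Face.lo_apply]
      exact h3

end P073.TM
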