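import Vale.Agent.P073.TM907.Basic

/-!
# P073, block TM: the cells of the tiling are a partition of `Λ`; frontier condition; levels
-/

open Set Metric Topology Filter

namespace P073.TM

open Vale.Agent.P073.St (V)
open P073.Net (SizeFn dyc dyo Adm IsTile)

variable {Λ : Set V} {ρ : V → ℝ} {v x : V} {σ τ : Face}

/-- tiles are unique -/
theorem tile_eq {m m' : ℕ} {z z' : Fin 3 → ℤ} (h : IsTile ρ v m z) (h' : IsTile ρ v m' z')
    {y : V} (hy : y ∈ dyo v m z) (hy' : y ∈ dyc v m' z') : m = m' ∧ z = z' := by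
  by_contra hne
  have : (m, z) ≠ (m', z') := fun he => hne (by simpa using he)
  exact Set.disjoint_left.1 (Net.NC.disj h h' this) hy hy'

theorem le_of_dyc_sub {m m' : ℕ} {z z' : Fin 3 → ℤ} (h : dyc v m z ⊆ dyc v m' z') : m' ≤ m := by
  by_contra hc
  push Not at hc
  have h1 : (fun k => v k + z k / 2 ^ m) ∈ dyc v m z := by
    intro k
    have h2 : (0:ℝ) < 2 ^ m := by positivity
    have : (z k : ℝ) / 2 ^ m ≤ (z k + 1) / 2 ^ m := by
      rw [div_le_div_iff_of_pos_right h2]; linarith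
    exact ⟨le_rfl, by linarith⟩
  have h1' : (fun k => v k + ((z k : ℝ) + 1) / 2 ^ m) ∈ dyc v m z := by
    intro k
    have h2 : (0:ℝ) < 2 ^ m := by positivity
    have : (z k : ℝ) / 2 ^ m ≤ (z k + 1) / 2 ^ m := by
      rw [div_le_div_iff_of_pos_right h2]; linarith
    exact ⟨by linarith, le_rfl⟩
  have h3 := Net.NC.dist_le (h h1') (h h1)
  have h4 := norm_le_pi_norm ((fun k => v k + ((z k : ℝ) + 1) / 2 ^ m) -
    (fun k => v k + (z k : ℝ) / 2 ^ m) : V) 0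
  have h5 : ((fun k => v k + ((z k : ℝ) + 1) / 2 ^ m) -
    (fun k => v k + (z k : ℝ) / 2 ^ m) : V) 0 = 1 / 2 ^ m := by
    simp only [Pi.sub_apply]; ring
  rw [h5, Real.norm_of_nonneg (by positivity)] at h4
  have h6 : (1:ℝ) / 2 ^ m' < 1 / 2 ^ m := by
    apply one_div_lt_one_div_of_lt (by positivity)
    exact pow_lt_pow_right₀ (by norm_num) hc
  linarith

/-- a tile through a point, meeting a given open set which has the point in its closure -/
theorem exists_tile_near (hρ : SizeFn Λ ρ) (hx : x ∈ Λ) {O : Set V} (hO : x ∈ closure O) :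
    ∃ m z, IsTile ρ v m z ∧ x ∈ dyc v m z ∧ (O ∩ dyc v m z).Nonempty := by
  obtain ⟨r, hr, hb⟩ := Metric.isOpen_iff.1 (isOpen_Λ hρ) x hx
  have hK : closedBall x (r / 2) ⊆ Λ :=
    (closedBall_subset_ball (by linarith)).trans hb
  have hfin := Net.NC.finite hρ v hK (isCompact_closedBall x (r / 2))
  set S := {p : ℕ × (Fin 3 → ℤ) | IsTile ρ v p.1 p.2 ∧
    (dyc v p.1 p.2 ∩ closedBall x (r / 2)).Nonempty} with hS
  set S' := {p ∈ S | x ∉ dyc v p.1 p.2} with hS'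
  have hS'fin : S'.Finite := hfin.subset fun p hp => hp.1
  have hcl : IsClosed (⋃ p ∈ S', dyc v p.1 p.2) :=
    hS'fin.isClosed_biUnion fun p _ => isClosed_dyc v p.1 p.2
  have hnot : x ∉ ⋃ p ∈ S', dyc v p.1 p.2 := by
    intro h
    obtain ⟨p, hp, hxp⟩ := mem_iUnion₂.1 h
    exact hp.2 hxp
  have hU : (⋃ p ∈ S', dyc v p.1 p.2)ᶜ ∩ ball x (r / 2) ∈ 𝓝 x :=
    inter_mem (hcl.isOpen_compl.mem_nhds hnot) (ball_mem_nhds x (by linarith))
  obtain ⟨y, hy, hyO⟩ := mem_closure_iff_nhds.1 hO _ hU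
  have hyΛ : y ∈ Λ := hK (ball_subset_closedBall hy.2)
  obtain ⟨m, z, ht, hyt⟩ := Net.NC.exists_tile hρ v hyΛ
  refine ⟨m, z, ht, ?_, y, hyO, hyt⟩
  by_contra hc
  apply hy.1
  exact mem_iUnion₂.2 ⟨(m, z), ⟨⟨ht, y, hyt, ball_subset_closedBall hy.2⟩, hc⟩, hyt⟩

namespace IsCell

/-- the tile of the level of the cell -/
theorem exists_tile (hσ : IsCell ρ v σ) : ∃ z, IsTile ρ v σ.m z ∧ σ.cl v ⊆ dyc v σ.m z := by
  obtain ⟨a, ha⟩ := hσ.2
  exact ⟨_, ha, Face.cl_sub_cube v σ a⟩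

theorem cl_sub (hρ : SizeFn Λ ρ) (hσ : IsCell ρ v σ) : σ.cl v ⊆ Λ := by
  obtain ⟨z, hz, hsub⟩ := hσ.exists_tile
  exact hsub.trans (tile_sub hρ hz)

/-- size of the cell and size function -/
theorem rho_bounds (hρ : SizeFn Λ ρ) (hσ : IsCell ρ v σ) (hx : x ∈ σ.cl v) :
    σ.sd ≤ ρ x ∧ ρ x ≤ 4 * σ.sd := by
  obtain ⟨z, hz, hsub⟩ := hσ.exists_tile
  have h1 := hz.1 x (hsub hx)
  have h2 := Net.NC.upper hρ hz (hsub hx)
  unfold Face.sd
  exact ⟨h1, by linarith [show (4:ℝ) / 2 ^ σ.m = 4 * (1 / 2 ^ σ.m) by ring]⟩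

/-- a tile through a point of the relative interior contains one of the cubes around the cell -/
theorem exists_cube_sub (hσ : IsCell ρ v σ) (hx : x ∈ σ.ri v) {m : ℕ} {z : Fin 3 → ℤ}
    (ht : IsTile ρ v m z) (hxt : x ∈ dyc v m z) :
    ∃ a, dyc v σ.m (σ.cube a) ⊆ dyc v m z := by
  obtain ⟨y, hy, hyo⟩ := mem_closure_iff_nhds.1 (dyc_sub_closure v m z hxt) _
    (Face.eventually_cube hx)
  obtain ⟨a, ha⟩ := hy
  obtain ⟨m', z', ht', hsub⟩ := hσ.1 a
  obtain ⟨e1, e2⟩ := tile_eq ht ht' hyo (hsub ha)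
  subst e1 e2
  exact ⟨a, hsub⟩

/-- the level of a cell is the largest level of the tiles at the points of the relative
interior -/
theorem tile_le (hσ : IsCell ρ v σ) (hx : x ∈ σ.ri v) {m : ℕ} {z : Fin 3 → ℤ}
    (ht : IsTile ρ v m z) (hxt : x ∈ dyc v m z) : m ≤ σ.m := by
  obtain ⟨a, ha⟩ := hσ.exists_cube_sub hx ht hxt
  exact le_of_dyc_sub ha

/-- **(T2)** a tile which meets the relative interior contains the closed cell -/
theorem cl_sub_tile (hσ : IsCell ρ v σ) (hx : x ∈ σ.ri v) {m : ℕ} {z : Fin 3 → ℤ}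
    (ht : IsTile ρ v m z) (hxt : x ∈ dyc v m z) : σ.cl v ⊆ dyc v m z := by
  obtain ⟨a, ha⟩ := hσ.exists_cube_sub hx ht hxt
  exact (Face.cl_sub_cube v σ a).trans ha

/-- a tile contains the closed cell iff it contains one of the cubes around it -/
theorem cl_sub_tile_iff (hσ : IsCell ρ v σ) {m : ℕ} {z : Fin 3 → ℤ} (ht : IsTile ρ v m z) :
    σ.cl v ⊆ dyc v m z ↔ ∃ a, dyc v σ.m (σ.cube a) ⊆ dyc v m z :=
  ⟨fun h => hσ.exists_cube_sub (Face.ctr_mem_ri v σ) ht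
    (h (Face.ri_sub_cl v σ (Face.ctr_mem_ri v σ))), fun ⟨a, ha⟩ =>
    (Face.cl_sub_cube v σ a).trans ha⟩

/-- **uniqueness** -/
theorem unique (hσ : IsCell ρ v σ) (hτ : IsCell ρ v τ) (hxσ : x ∈ σ.ri v) (hxτ : x ∈ τ.ri v) :
    σ = τ := by
  apply Face.eq_of_mem_ri hxσ hxτ
  obtain ⟨z, hz, hsub⟩ := hσ.exists_tile
  obtain ⟨z', hz', hsub'⟩ := hτ.exists_tile
  exact le_antisymm (hτ.tile_le hxτ hz (hsub (Face.ri_sub_cl v σ hxσ)))
    (hσ.tile_le hxσ hz' (hsub' (Face.ri_sub_cl v τ hxτ)))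

end IsCell

/-- **existence** -/
theorem exists_cell (hρ : SizeFn Λ ρ) (v : V) {x : V} (hx : x ∈ Λ) :
    ∃ σ, IsCell ρ v σ ∧ x ∈ σ.ri v := by
  classical
  -- a tile of maximal level
  have hfin := Net.NC.finite hρ v (singleton_subset_iff.2 hx) isCompact_singleton
  have hne : ({p : ℕ × (Fin 3 → ℤ) | IsTile ρ v p.1 p.2 ∧
      (dyc v p.1 p.2 ∩ {x}).Nonempty}).Nonempty := by
    obtain ⟨m, z, h1, h2⟩ := Net.NC.exists_tile hρ v hx
    exact ⟨(m, z), h1, x, h2, rfl⟩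
  obtain ⟨⟨m, z⟩, ⟨ht, y, hy, hyx⟩, hmax⟩ := hfin.exists_maximalFor Prod.fst _ hne
  rw [mem_singleton_iff] at hyx
  subst hyx
  have hmax' : ∀ m' z', IsTile ρ v m' z' → y ∈ dyc v m' z' → m' ≤ m := by
    intro m' z' h1 h2
    by_contra hc
    push Not at hc
    have := hmax (j := (m', z')) ⟨h1, y, h2, rfl⟩ hc.le
    exact absurd this (not_le.2 hc)
  have hri := Face.mem_ri_ofPt v m y
  refine ⟨Face.ofPt v m y, ⟨fun a => ?_, ?_⟩, hri⟩
  · have hmem : y ∈ closure (dyo v m ((Face.ofPt v m y).cube a)) :=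
      dyc_sub_closure v m _ (Face.cl_sub_cube v (Face.ofPt v m y) a (Face.ri_sub_cl v _ hri))
    obtain ⟨m', z', h1, h2, w, hwo, hwt⟩ := exists_tile_near (v := v) hρ hx hmem
    refine ⟨m', z', h1, ?_⟩
    show dyc v m ((Face.ofPt v m y).cube a) ⊆ dyc v m' z'
    exact Net.NC.dyc_sub (Net.NC.fine_sub' (hmax' m' z' h1 h2) hwo hwt)
  · obtain ⟨a, ha⟩ := Face.exists_cube hri (z' := z) hy
    refine ⟨a, ?_⟩
    rw [← ha]
    exact ht

/-- **(T1)** -/
theorem existsUnique_cell (hρ : SizeFn Λ ρ) (v : V) {x : V} (hx : x ∈ Λ) :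
    ∃! σ, IsCell ρ v σ ∧ x ∈ σ.ri v := by
  obtain ⟨σ, h1, h2⟩ := exists_cell hρ v hx
  exact ⟨σ, ⟨h1, h2⟩, fun τ hτ => hτ.1.unique h1 hτ.2 h2⟩

namespace IsCell

/-- the level decreases towards the frontier -/
theorem level_le (hσ : IsCell ρ v σ) (hτ : IsCell ρ v τ) (hx : x ∈ σ.ri v) (hxτ : x ∈ τ.cl v) :
    τ.m ≤ σ.m := by
  obtain ⟨z', hz', hsub'⟩ := hτ.exists_tile
  exact hσ.tile_le hx hz' (hsub' hxτ)

/-- **frontier condition** -/
theorem frontier (hσ : IsCell ρ v σ) (hτ : IsCell ρ v τ) (hx : x ∈ σ.ri v) (hxτ : x ∈ τ.cl v) :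
    (∀ k, τ.n k = true → σ.n k = true) ∧ σ.cl v ⊆ τ.cl v ∧ (σ.n = τ.n → σ = τ) := by
  have hle := hσ.level_le hτ hx hxτ
  have hxc := Face.mem_cl.1 hxτ
  -- normal directions
  have hn : ∀ k, τ.n k = true → σ.n k = true := by
    intro k hk
    by_contra hc
    rw [Bool.not_eq_true] at hc
    have h1 := Face.ri_t hx hc
    have h2 := hxc k
    rw [Face.hi_of hk] at h2
    have h3 : x k = τ.lo v k := le_antisymm h2.2 h2.1
    rw [h3, Face.hi_of' hc, Face.lo_apply, Face.lo_apply] at h1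
    rcases Face.coarse_or hle (τ.z k) (σ.z k) with h4 | h4 <;> linarith [h1.1, h1.2]
  have hb : ∀ k, τ.lo v k ≤ σ.lo v k ∧ σ.hi v k ≤ τ.hi v k := by
    intro k
    have h2 := hxc k
    cases hk : σ.n k with
    | true =>
      rw [Face.hi_of hk, ← Face.ri_n hx hk]
      exact h2
    | false =>
      have hk' : τ.n k = false := by
        by_contra hc
        rw [Bool.not_eq_false] at hc
        rw [hn k hc] at hk
        exact absurd hk (by simp)
      have h1 := Face.ri_t hx hk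
      rw [Face.hi_of' hk, Face.lo_apply] at h1
      rw [Face.hi_of' hk', Face.lo_apply] at h2
      rw [Face.hi_of' hk, Face.hi_of' hk', Face.lo_apply, Face.lo_apply]
      constructor
      · rcases Face.coarse_or hle (τ.z k) (σ.z k) with h4 | h4 <;> linarith [h1.1, h1.2, h2.1]
      · have := Face.coarse_or hle (τ.z k + 1) (σ.z k)
        push_cast at this
        rcases this with h4 | h4 <;> linarith [h1.1, h1.2, h2.2]
  refine ⟨hn, fun y hy => Face.mem_cl.2 fun k => ?_, fun he => ?_⟩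
  · have := Face.mem_cl.1 hy k
    exact ⟨(hb k).1.trans this.1, this.2.trans (hb k).2⟩
  · apply hσ.unique hτ hx
    intro k
    cases hk : τ.n k with
    | true =>
      have h2 := hxc k
      rw [Face.hi_of hk] at h2
      rw [if_pos rfl]
      exact le_antisymm h2.2 h2.1
    | false =>
      rw [if_neg (by simp)]
      have h1 := Face.ri_t hx (by rw [he, hk])
      exact ⟨(hb k).1.trans_lt h1.1, h1.2.trans_le (hb k).2⟩

/-- two powers of one half -/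
theorem pow_le_of {a b : ℕ} {C : ℝ} (hC : C < 8) (h : (1:ℝ) / 2 ^ a ≤ C * (1 / 2 ^ b)) :
    b ≤ a + 2 := by
  by_contra hc
  push Not at hc
  obtain ⟨n, rfl⟩ := Nat.exists_eq_add_of_le hc
  have h2 : (0:ℝ) < 2 ^ a := by positivity
  have h3 : (1:ℝ) ≤ 2 ^ n := one_le_pow₀ (by norm_num)
  have h4 : (2:ℝ) ^ (a + 2 + 1 + n) = 2 ^ a * 8 * 2 ^ n := by rw [pow_add, pow_add, pow_add]; ring
  have h5 : C * (1 / 2 ^ (a + 2 + 1 + n)) = (C / (8 * 2 ^ n)) * (1 / 2 ^ a) := by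
    rw [h4]; field_simp
  have h5' : (1:ℝ) / 2 ^ a ≤ (C / (8 * 2 ^ n)) * (1 / 2 ^ a) := by
    rw [← h5]
    exact h
  have h6 : (0:ℝ) < 1 / 2 ^ a := by positivity
  have h7 : C / (8 * 2 ^ n) < 1 := by
    rw [div_lt_one (by positivity)]; nlinarith
  exact absurd h5' (not_le.2 (mul_lt_of_lt_one_left h6 h7))

/-- **(T3)** cells with a common point have comparable levels -/
theorem level_le_add (hρ : SizeFn Λ ρ) (hσ : IsCell ρ v σ) (hτ : IsCell ρ v τ)
    (hxσ : x ∈ σ.cl v) (hxτ : x ∈ τ.cl v) : τ.m ≤ σ.m + 2 := by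
  have h1 := (hσ.rho_bounds hρ hxσ).1
  have h2 := (hτ.rho_bounds hρ hxτ).2
  unfold Face.sd at h1 h2
  exact pow_le_of (C := 4) (by norm_num) (h1.trans h2)

end IsCell

end P073.TM
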