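import Vale.Agent.P073.TM907.Sep
import Vale.Agent.P073.PR720.Cx

/-!
# P073, block TM: local structure of the tiling
-/

open Set Metric Topology Filter

namespace P073.TM

open Vale.Agent.P073.St (V)
open P073.Net (SizeFn dyc dyo Adm IsTile)
open P073.PR720 (LF)

variable {Λ : Set V} {ρ : V → ℝ} {v x : V} {σ τ κ : Face}

/-- local finiteness of the closed cells -/
theorem finite_cells (hρ : SizeFn Λ ρ) (v : V) {K : Set V} (hK : K ⊆ Λ) (hKc : IsCompact K) :
    {σ : Face | IsCell ρ v σ ∧ (σ.cl v ∩ K).Nonempty}.Finite := by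
  have h1 := Net.NC.finite hρ v hK hKc
  have h2 : (Set.univ : Set (Fin 3 → Bool)).Finite := Set.finite_univ
  refine ((h1.prod (h2.prod h2)).image
    (fun q : (ℕ × (Fin 3 → ℤ)) × ((Fin 3 → Bool) × (Fin 3 → Bool)) =>
      (⟨q.1.1, fun k => q.1.2 k + if q.2.1 k && q.2.2 k then 1 else 0, q.2.1⟩ : Face))).subset ?_
  rintro σ ⟨hσ, y, hy, hyK⟩
  obtain ⟨a, ha⟩ := hσ.2
  refine ⟨((σ.m, σ.cube a), (σ.n, a)), ⟨⟨ha, y, Face.cl_sub_cube v σ a hy, hyK⟩, trivial,
    trivial⟩, ?_⟩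
  ext
  · rfl
  · simp [Face.cube]
  · rfl

theorem lf_cells (hρ : SizeFn Λ ρ) (v : V) :
    LF (fun σ : {σ : Face // IsCell ρ v σ} => σ.1.cl v) Λ := by
  intro x hx
  obtain ⟨r, hr, hb⟩ := Metric.isOpen_iff.1 (isOpen_Λ hρ) x hx
  refine ⟨closedBall x (r / 2), closedBall_mem_nhds x (by linarith), ?_⟩
  have h1 := finite_cells hρ v ((closedBall_subset_ball (by linarith)).trans hb)
    (isCompact_closedBall x (r / 2))
  refine Set.Finite.of_finite_image (f := Subtype.val) (h1.subset ?_)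
    Subtype.val_injective.injOn
  rintro _ ⟨σ, hσ, rfl⟩
  exact ⟨σ.2, hσ⟩

/-- the closed cells at the points near `x` contain `x` -/
theorem eventually_cl (hρ : SizeFn Λ ρ) (v : V) (hx : x ∈ Λ) :
    ∀ᶠ y in 𝓝 x, ∀ τ, IsCell ρ v τ → y ∈ τ.cl v → x ∈ τ.cl v := by
  obtain ⟨U, hU, hfin⟩ := lf_cells hρ v x hx
  have h1 : ∀ᶠ y in 𝓝 x, ∀ τ ∈ {τ : {σ : Face // IsCell ρ v σ} | (τ.1.cl v ∩ U).Nonempty},
      y ∈ τ.1.cl v → x ∈ τ.1.cl v := by
    rw [hfin.eventually_all]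
    intro τ _
    by_cases hxτ : x ∈ τ.1.cl v
    · exact Eventually.of_forall fun _ _ => hxτ
    · filter_upwards [(Face.isClosed_cl v τ.1).isOpen_compl.mem_nhds hxτ] with y hy hy'
      exact absurd hy' hy
  filter_upwards [h1, hU] with y hy hyU τ hτ hyτ
  exact hy ⟨τ, hτ⟩ ⟨y, hyτ, hyU⟩ hyτ

/-- a tile is a cell -/
def tf (m : ℕ) (z : Fin 3 → ℤ) : Face := ⟨m, z, fun _ => false⟩

theorem cube_tf (m : ℕ) (z : Fin 3 → ℤ) (a : Fin 3 → Bool) : (tf m z).cube a = z := by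
  funext k; simp [tf, Face.cube]

theorem isCell_tf {m : ℕ} {z : Fin 3 → ℤ} (h : IsTile ρ v m z) : IsCell ρ v (tf m z) := by
  refine ⟨fun a => ⟨m, z, h, ?_⟩, fun _ => false, ?_⟩
  · rw [cube_tf]; exact subset_rfl
  · rw [cube_tf]; exact h

theorem cl_tf (v : V) (m : ℕ) (z : Fin 3 → ℤ) : (tf m z).cl v = dyc v m z := by
  ext x
  rw [Face.mem_cl]
  refine forall_congr' fun k => ?_
  rw [Face.hi_of' rfl, Face.lo_apply]
  rfl

theorem ri_tf (v : V) (m : ℕ) (z : Fin 3 → ℤ) : (tf m z).ri v = dyo v m z := by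
  ext x
  refine forall_congr' fun k => ?_
  rw [if_neg (by simp [tf]), Face.hi_of' rfl, Face.lo_apply]
  rfl

/-- a coordinate of a coarse level is normal -/
theorem normal_of {m : ℕ} (hm : m ≤ κ.m) (hx : x ∈ κ.ri v) {k : Fin 3} {a : ℤ}
    (h : x k = v k + a / 2 ^ m) : κ.n k = true := by
  by_contra hc
  rw [Bool.not_eq_true] at hc
  have h1 := Face.ri_t hx hc
  rw [Face.hi_of' hc, Face.lo_apply, h] at h1
  rcases Face.coarse_or hm a (κ.z k) with h4 | h4 <;> linarith [h1.1, h1.2]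

theorem normal_of_lo (hκ : IsCell ρ v κ) (hτ : IsCell ρ v τ) (hx : x ∈ κ.ri v)
    (hxτ : x ∈ τ.cl v) {k : Fin 3} (h : x k = τ.lo v k) : κ.n k = true :=
  normal_of (hκ.level_le hτ hx hxτ) hx (by rw [h, Face.lo_apply])

theorem normal_of_hi (hκ : IsCell ρ v κ) (hτ : IsCell ρ v τ) (hx : x ∈ κ.ri v)
    (hxτ : x ∈ τ.cl v) {k : Fin 3} (h : x k = τ.hi v k) : κ.n k = true := by
  obtain ⟨a, ha⟩ := Face.exists_hi_eq v τ k
  exact normal_of (hκ.level_le hτ hx hxτ) hx (h.trans ha)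

/-- points of a closed box near `x`, off `x` in one direction only -/
theorem exists_near {lo hi : V} (hx : ∀ k, lo k ≤ x k ∧ x k ≤ hi k) {k : Fin 3}
    (hk : lo k < hi k) {U : Set V} (hU : U ∈ 𝓝 x) :
    ∃ y ∈ U, (∀ j, lo j ≤ y j ∧ y j ≤ hi j) ∧ y k ≠ x k ∧ ∀ j, j ≠ k → y j = x j := by
  have hc : Continuous (fun t : ℝ => Function.update x k (x k + t)) := by fun_prop
  have hev : ∀ᶠ t : ℝ in 𝓝 0, Function.update x k (x k + t) ∈ U := by
    apply hc.continuousAt.preimage_mem_nhds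
    simpa using hU
  obtain ⟨δ, hδ, hb⟩ := Metric.eventually_nhds_iff.1 hev
  have hxk := hx k
  rcases hxk.2.lt_or_eq with h1 | h1
  · set t := min (δ / 2) (hi k - x k) with ht
    have ht0 : 0 < t := lt_min (by linarith) (by linarith)
    have ht1 : t ≤ δ / 2 := min_le_left _ _
    have ht2 : t ≤ hi k - x k := min_le_right _ _
    refine ⟨Function.update x k (x k + t), hb ?_, fun j => ?_, ?_, fun j hj => ?_⟩
    · rw [dist_zero_right, Real.norm_of_nonneg ht0.le]; linarith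
    · by_cases hj : j = k
      · subst hj
        rw [Function.update_self]
        exact ⟨by linarith, by linarith⟩
      · rw [Function.update_of_ne hj]; exact hx j
    · rw [Function.update_self]; linarith
    · rw [Function.update_of_ne hj]
  · set t := min (δ / 2) (x k - lo k) with ht
    have ht0 : 0 < t := lt_min (by linarith) (by linarith)
    have ht1 : t ≤ δ / 2 := min_le_left _ _
    have ht2 : t ≤ x k - lo k := min_le_right _ _
    refine ⟨Function.update x k (x k + -t), hb ?_, fun j => ?_, ?_, fun j hj => ?_⟩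
    · rw [dist_zero_right, norm_neg, Real.norm_of_nonneg ht0.le]; linarith
    · by_cases hj : j = k
      · subst hj
        rw [Function.update_self]
        exact ⟨by linarith, by linarith⟩
      · rw [Function.update_of_ne hj]; exact hx j
    · rw [Function.update_self]; linarith
    · rw [Function.update_of_ne hj]

namespace IsCell

/-- an edge at a vertex `κ`, inside a given cell `τ` which is tangential to `k` and whose other
coordinates at the vertex are extremal -/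
theorem exists_edge (hρ : SizeFn Λ ρ) (_hκ : IsCell ρ v κ) (_hV : κ.IsV) (hτ : IsCell ρ v τ)
    (hmem : κ.lo v ∈ τ.cl v) {k : Fin 3} (hk : τ.n k = false)
    (hj : ∀ j, j ≠ k → κ.lo v j = τ.lo v j ∨ κ.lo v j = τ.hi v j) :
    ∃ ε, IsCell ρ v ε ∧ ε.IsE k ∧ κ.lo v ∈ ε.cl v ∧ ε.cl v ⊆ τ.cl v := by
  have hxΛ : κ.lo v ∈ Λ := hτ.cl_sub hρ hmem
  have hlt : τ.lo v k < τ.hi v k := by
    rw [Face.hi_of_sd hk]; linarith [τ.sd_pos]
  obtain ⟨y, hyU, hyτ, hyk, hyj⟩ := exists_near (Face.mem_cl.1 hmem) hlt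
    (eventually_cl hρ v hxΛ)
  have hyτ' : y ∈ τ.cl v := Face.mem_cl.2 hyτ
  obtain ⟨ε, hε, hyε⟩ := exists_cell hρ v (hτ.cl_sub hρ hyτ')
  have hxε : κ.lo v ∈ ε.cl v := hyU ε hε (Face.ri_sub_cl v ε hyε)
  have hn : ∀ j, j ≠ k → ε.n j = true := by
    intro j hjk
    rcases hj j hjk with h | h
    · exact normal_of_lo hε hτ hyε hyτ' (by rw [hyj j hjk, h])
    · exact normal_of_hi hε hτ hyε hyτ' (by rw [hyj j hjk, h])
  have hnk : ε.n k = false := by
    by_contra hc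
    rw [Bool.not_eq_false] at hc
    have hεV : ε.IsV := by
      intro j
      by_cases hjk : j = k
      · rw [hjk, hc]
      · exact hn j hjk
    rw [Face.cl_of_V hεV, mem_singleton_iff] at hxε
    rw [Face.ri_of_V hεV, mem_singleton_iff] at hyε
    exact hyk (by rw [hyε, ← hxε])
  refine ⟨ε, hε, fun j => ⟨fun h1 h2 => ?_, hn j⟩, hxε, (hε.frontier hτ hyε hyτ').2.1⟩
  rw [h2, hnk] at h1
  exact absurd h1 (by simp)

/-- the tile of the level of a vertex has it as a corner -/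
theorem exists_corner (hκ : IsCell ρ v κ) (hV : κ.IsV) : ∃ z, IsTile ρ v κ.m z ∧
    κ.lo v ∈ (tf κ.m z).cl v ∧
    ∀ j, κ.lo v j = (tf κ.m z).lo v j ∨ κ.lo v j = (tf κ.m z).hi v j := by
  obtain ⟨a, ha⟩ := hκ.2
  refine ⟨_, ha, ?_, fun j => ?_⟩
  · rw [cl_tf]; exact Face.cl_sub_cube v κ a (Face.lo_mem_cl v κ)
  · rw [Face.hi_of' rfl, Face.lo_apply, Face.lo_apply]
    show v j + (κ.z j : ℝ) / 2 ^ κ.m = v j + ((κ.cube a j : ℤ) : ℝ) / 2 ^ κ.m ∨
      v j + (κ.z j : ℝ) / 2 ^ κ.m = v j + (((κ.cube a j : ℤ) : ℝ) + 1) / 2 ^ κ.m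
    cases h : a j with
    | false => rw [Face.cube_of_false a h]; exact Or.inl rfl
    | true =>
      rw [Face.cube_of_true (hV j) a h]
      right
      push_cast
      ring_nf

/-- at every vertex there is an edge in every direction -/
theorem exists_edge_dir (hρ : SizeFn Λ ρ) (hκ : IsCell ρ v κ) (hV : κ.IsV) (k : Fin 3) :
    ∃ ε, IsCell ρ v ε ∧ ε.IsE k ∧ κ.lo v ∈ ε.cl v := by
  obtain ⟨z, hz, hmem, hj⟩ := hκ.exists_corner hV
  obtain ⟨ε, h1, h2, h3, -⟩ := hκ.exists_edge hρ hV (isCell_tf hz) hmem (k := k) rfl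
    (fun j _ => hj j)
  exact ⟨ε, h1, h2, h3⟩

/-- a point with two normal directions is in a closed edge -/
theorem mem_edge (hρ : SizeFn Λ ρ) (hκ : IsCell ρ v κ) {k k' : Fin 3} (hkk : k ≠ k')
    (h1 : κ.n k = true) (h2 : κ.n k' = true) (hx : x ∈ κ.ri v) :
    ∃ ε l, IsCell ρ v ε ∧ ε.IsE l ∧ x ∈ ε.cl v := by
  by_cases hV : κ.IsV
  · obtain ⟨ε, a1, a2, a3⟩ := hκ.exists_edge_dir hρ hV k
    rw [Face.ri_of_V hV, mem_singleton_iff] at hx
    exact ⟨ε, k, a1, a2, hx ▸ a3⟩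
  · simp only [Face.IsV, not_forall, Bool.not_eq_true] at hV
    obtain ⟨l, hl⟩ := hV
    refine ⟨κ, l, hκ, fun j => ⟨fun hj hjl => ?_, fun hj => ?_⟩, Face.ri_sub_cl v κ hx⟩
    · rw [hjl, hl] at hj; exact absurd hj (by simp)
    · have hkl : k ≠ l := fun h => by rw [h, hl] at h1; exact absurd h1 (by simp)
      have hk'l : k' ≠ l := fun h => by rw [h, hl] at h2; exact absurd h2 (by simp)
      have : j = k ∨ j = k' := by omega
      rcases this with h | h
      · rw [h, h1]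
      · rw [h, h2]

end IsCell

end P073.TM
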