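import Vale.Agent.P073.TM907.Build

/-!
# P073, block TM-A: `SpecTilesCx`
-/

open Set Metric Topology Filter

namespace P073.TM

open Vale.Agent.P073.St (V)
open P073.Net (SizeFn dyc dyo Adm IsTile)
open P073.PR720 (LF)
open P073.PA691 (IsDy BoxCx SpecTilesCx)

variable {Λ : Set V} {ρ : V → ℝ} {v x : V} {σ τ κ : Face}

/-- the vertices -/
abbrev VV (ρ : V → ℝ) (v : V) : Type := {σ : Face // IsCell ρ v σ ∧ σ.IsV}

/-- the edges -/
abbrev EE (ρ : V → ℝ) (v : V) : Type := {σ : Face // IsCell ρ v σ ∧ ∃ k, σ.IsE k}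

/-- the squares -/
abbrev SS (ρ : V → ℝ) (v : V) : Type := {σ : Face // IsCell ρ v σ ∧ ∃ k, σ.IsS k}

theorem LF.of_inj {ι κ : Type*} {A : ι → Set V} {B : κ → Set V} {W : Set V} (hB : LF B W)
    (φ : ι → κ) (hφ : Function.Injective φ) (h : ∀ i, A i ⊆ B (φ i)) : LF A W := by
  intro z hz
  obtain ⟨U, hU, hfin⟩ := hB z hz
  refine ⟨U, hU, Set.Finite.of_finite_image (f := φ) (hfin.subset ?_) hφ.injOn⟩
  rintro _ ⟨i, hi, rfl⟩
  exact hi.mono (inter_subset_inter_left _ (h i))

/-- the dyadic Whitney tiling -/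
theorem specTilesCx : SpecTilesCx := by
  classical
  intro Λ ρ v _ hρ
  have hlo : ∀ e : EE ρ v, ∃ i : VV ρ v, i.1.lo v = e.1.lo v := fun e => by
    obtain ⟨κ, h1, h2, h3⟩ := e.2.1.lo_vertex hρ
    exact ⟨⟨κ, h1, h2⟩, h3⟩
  have hhi : ∀ e : EE ρ v, ∃ i : VV ρ v, i.1.lo v = e.1.hi v := fun e => by
    obtain ⟨κ, h1, h2, h3⟩ := e.2.1.hi_vertex hρ
    exact ⟨⟨κ, h1, h2⟩, h3⟩
  choose a ha using hlo
  choose b hb using hhi
  have hdir : ∀ e : EE ρ v, ∃ k, e.1.IsE k := fun e => e.2.2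
  choose dir hdir using hdir
  have hnrm : ∀ s : SS ρ v, ∃ k, s.1.IsS k := fun s => s.2.2
  choose nrm hnrm using hnrm
  have hsm : ∀ s : SS ρ v, ∃ p : TT ρ v, dyc v s.1.m (s.1.cube fun _ => true) ⊆
      dyc v p.1.1 p.1.2 := fun s => by
    obtain ⟨m, z, h1, h2⟩ := s.2.1.1 fun _ => true
    exact ⟨⟨(m, z), h1⟩, h2⟩
  have hsp : ∀ s : SS ρ v, ∃ p : TT ρ v, dyc v s.1.m (s.1.cube fun _ => false) ⊆
      dyc v p.1.1 p.1.2 := fun s => by
    obtain ⟨m, z, h1, h2⟩ := s.2.1.1 fun _ => false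
    exact ⟨⟨(m, z), h1⟩, h2⟩
  choose sm hsm using hsm
  choose sp hsp using hsp
  have hLF := lf_cells hρ v
  -- closed edges
  have hE : ∀ e : EE ρ v, Icc ((a e).1.lo v) ((b e).1.lo v) = e.1.cl v := fun e => by
    rw [ha, hb]; rfl
  -- edges in the boundary of a point with two normals
  have hmem : ∀ {κ : Face} {x : V}, IsCell ρ v κ → ∀ k k', k ≠ k' → κ.n k = true →
      κ.n k' = true → x ∈ κ.ri v → ∃ e : EE ρ v, x ∈ Icc ((a e).1.lo v) ((b e).1.lo v) := by
    intro κ x hκ k k' hkk h1 h2 hx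
    obtain ⟨ε, l, hε, hεE, hxε⟩ := hκ.mem_edge hρ hkk h1 h2 hx
    exact ⟨⟨ε, hε, l, hεE⟩, by rw [hE]; exact hxε⟩
  -- normals at the frontier of a tile
  have hnt : ∀ {κ : Face} {x : V} (p : TT ρ v) (k : Fin 3), IsCell ρ v κ → x ∈ κ.ri v →
      x ∈ Icc (tlo v p.1) (thi v p.1) → (x k = tlo v p.1 k ∨ x k = thi v p.1 k) →
      κ.n k = true := by
    intro κ x p k hκ hx hxp hk
    rw [icc_eq, ← cl_tf] at hxp
    rcases hk with hk | hk
    · exact normal_of_lo hκ (isCell_tf p.2) hx hxp (by rw [hk, tf_lo])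
    · exact normal_of_hi hκ (isCell_tf p.2) hx hxp (by rw [hk, tf_hi])
  have hsqo : ∀ (s : SS ρ v) (x : V), x (nrm s) = s.1.lo v (nrm s) →
      (∀ k, k ≠ nrm s → s.1.lo v k < x k ∧ x k < s.1.hi v k) → x ∈ s.1.ri v := by
    intro s x h1 h2
    exact (Face.S_mem_ri (hnrm s)).2 ⟨h1, h2⟩
  -- tiles at the points of an open square
  have hsqt : ∀ (s : SS ρ v) (p : TT ρ v) (x : V), x ∈ s.1.ri v →
      x ∈ Icc (tlo v p.1) (thi v p.1) → p = sm s ∨ p = sp s := by
    intro s p x hx hxp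
    rw [icc_eq] at hxp
    obtain ⟨c, hc⟩ := s.2.1.exists_cube_sub hx p.2 hxp
    have hctr : (tf s.1.m (s.1.cube c)).ctr v ∈ dyo v s.1.m (s.1.cube c) := by
      rw [← ri_tf]; exact Face.ctr_mem_ri v _
    have key : ∀ q : TT ρ v, dyc v s.1.m (s.1.cube c) ⊆ dyc v q.1.1 q.1.2 → p = q := by
      intro q hq
      by_contra hne
      -- a common interior point
      have hcp : (tf s.1.m (s.1.cube c)).ctr v ∈ dyo v p.1.1 p.1.2 := by
        intro j
        have b := bounds_of_sub hc j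
        have c := hctr j
        exact ⟨by linarith [b.1, c.1], by linarith [b.2, c.2]⟩
      obtain ⟨e1, e2⟩ := tile_eq p.2 q.2 hcp (hq (dyo_sub_dyc _ _ _ hctr))
      exact hne (Subtype.ext (Prod.ext e1 e2))
    rw [Face.S_cube (hnrm s) c] at hc key
    cases hck : c (nrm s) with
    | true => rw [hck] at key; exact Or.inl (key _ (hsm s))
    | false => rw [hck] at key; exact Or.inr (key _ (hsp s))
  refine ⟨{
    T := TT ρ v
    lo := fun p => tlo v p.1
    hi := fun p => thi v p.1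
    lt := fun p k => tlo_lt_thi v p.1 k
    sub := fun p => by rw [icc_eq]; exact tile_sub hρ p.2
    cover := fun x hx => by
      obtain ⟨m, z, h1, h2⟩ := Net.NC.exists_tile hρ v hx
      exact ⟨⟨(m, z), h1⟩, by rw [icc_eq]; exact h2⟩
    lfT := by
      refine LF.of_inj hLF (fun p => ⟨tf p.1.1 p.1.2, isCell_tf p.2⟩) (fun p q h => ?_)
        fun p => ?_
      · have := Subtype.mk.inj h
        simp only [tf, Face.mk.injEq, and_true] at this
        exact Subtype.ext (Prod.ext this.1 this.2)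
      · rw [icc_eq, ← cl_tf]
    dis := fun p q hpq x hx hxq => by
      rw [icc_eq] at hxq
      have : (p.1.1, p.1.2) ≠ (q.1.1, q.1.2) := fun h => hpq (Subtype.ext h)
      exact Set.disjoint_left.1 (Net.NC.disj p.2 q.2 this) (fun k => hx k) hxq
    W := VV ρ v
    w := fun i => i.1.lo v
    w_inj := fun i j h => Subtype.ext (i.2.1.eq_of_lo_eq j.2.1 i.2.2 j.2.2 h)
    w_dy := fun i k => ⟨i.1.z k, i.1.m, by rw [Face.lo_apply]; ring⟩
    G := EE ρ v
    a := a
    b := b
    dir := dir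
    ab_dir := fun e => by
      rw [ha, hb, Face.hi_of_sd (Face.E_t (hdir e))]
      linarith [e.1.sd_pos]
    ab_off := fun e k hk => by rw [ha, hb, Face.hi_of (Face.E_n (hdir e) hk)]
    lfG := by
      refine LF.of_inj hLF (fun e => ⟨e.1, e.2.1⟩) (fun p q h => ?_) fun e => ?_
      · exact Subtype.ext (Subtype.mk.inj h)
      · rw [hE]
    w_edge := fun i => by
      obtain ⟨ε, h1, h2, h3⟩ := i.2.1.exists_edge_dir hρ i.2.2 0
      refine ⟨⟨ε, h1, 0, h2⟩, ?_⟩
      rcases i.2.1.end_of_edge h1 i.2.2 h2 h3 with h | h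
      · exact Or.inl (Subtype.ext (i.2.1.eq_of_lo_eq (a ⟨ε, h1, 0, h2⟩).2.1 i.2.2
          (a ⟨ε, h1, 0, h2⟩).2.2 (by rw [ha]; exact h)))
      · exact Or.inr (Subtype.ext (i.2.1.eq_of_lo_eq (b ⟨ε, h1, 0, h2⟩).2.1 i.2.2
          (b ⟨ε, h1, 0, h2⟩).2.2 (by rw [hb]; exact h)))
    w_on_edge := fun i e h => by
      rw [hE] at h
      rcases i.2.1.end_of_edge e.2.1 i.2.2 (hdir e) h with h | h
      · exact Or.inl (Subtype.ext (i.2.1.eq_of_lo_eq (a e).2.1 i.2.2 (a e).2.2
          (by rw [ha]; exact h)))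
      · exact Or.inr (Subtype.ext (i.2.1.eq_of_lo_eq (b e).2.1 i.2.2 (b e).2.2
          (by rw [hb]; exact h)))
    edge_meet := fun e e' hne x hx hx' => by
      rw [hE] at hx hx'
      obtain ⟨κ, h1, h2, h3, -⟩ := e.2.1.edges_meet hρ e'.2.1 (hdir e) (hdir e')
        (fun h => hne (Subtype.ext h)) ⟨hx, hx'⟩
      exact ⟨⟨κ, h1, h2⟩, h3.symm⟩
    edge_in := fun e => by
      obtain ⟨z, hz, hsub⟩ := e.2.1.exists_tile
      exact ⟨⟨(e.1.m, z), hz⟩, by rw [hE, icc_eq]; exact hsub⟩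
    w_tile := fun i p h => by
      by_contra hc
      push Not at hc
      have hxp := h
      rw [icc_eq] at hxp
      have hri : i.1.lo v ∈ (tf p.1.1 p.1.2).ri v := by
        rw [ri_tf]
        intro k
        exact ⟨lt_of_le_of_ne (hxp k).1 (Ne.symm (hc k).1), lt_of_le_of_ne (hxp k).2 (hc k).2⟩
      have he := i.2.1.unique (isCell_tf p.2) (x := i.1.lo v)
        (by rw [Face.ri_of_V i.2.2]; rfl) hri
      have := i.2.2 0
      rw [he] at this
      simp [tf] at this
    edge_tile := fun e p x hx h1 h2 hxp => by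
      rw [hE] at hx ⊢
      rw [ha] at h1
      rw [hb] at h2
      rw [icc_eq] at hxp ⊢
      have hri := IsCell.mem_ri_of_edge (hdir e) hx h1 h2
      have hsub := e.2.1.cl_sub_tile hri p.2 hxp
      refine ⟨hsub, ?_⟩
      by_contra hc
      push Not at hc
      have l1 := hsub (Face.lo_mem_cl v e.1)
      have l2 := hsub (Face.hi_mem_cl v e.1)
      have hri' : x ∈ (tf p.1.1 p.1.2).ri v := by
        rw [ri_tf]
        intro k
        by_cases hk : k = dir e
        · subst hk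
          have h3 := Face.ri_t hri (Face.E_t (hdir e))
          exact ⟨(l1 _).1.trans_lt h3.1, h3.2.trans_le (l2 _).2⟩
        · have h3 := Face.ri_n hri (Face.E_n (hdir e) hk)
          have h4 := hc k hk
          rw [ha] at h4
          rw [h3]
          exact ⟨lt_of_le_of_ne (l1 k).1 (Ne.symm h4.1), lt_of_le_of_ne (l1 k).2 h4.2⟩
      have he := e.2.1.unique (isCell_tf p.2) hri hri'
      obtain ⟨j, hj⟩ := exists_ne (dir e)
      have := Face.E_n (hdir e) hj
      rw [he] at this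
      simp [tf] at this
    skel_tile := fun p x hx k k' hkk h1 h2 => by
      obtain ⟨κ, hκ, hxκ⟩ := exists_cell hρ v (x := x) (tile_sub hρ p.2 (by
        rw [← icc_eq]; exact hx))
      exact hmem hκ k k' hkk (hnt p k hκ hxκ hx h1) (hnt p k' hκ hxκ hx h2) hxκ
    S := SS ρ v
    sm := sm
    sp := sp
    nrm := nrm
    slo := fun s => s.1.lo v
    shi := fun s => s.1.hi v
    s_flat := fun s => (Face.hi_of (Face.S_n (hnrm s))).symm
    s_lt := fun s k hk => by
      rw [Face.hi_of_sd (Face.S_t (hnrm s) hk)]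
      linarith [s.1.sd_pos]
    s_lev := fun s => sq_lev s.2.1 (hnrm s) (sm s).2 (sp s).2 (hsm s) (hsp s)
    s_dy := fun s => ⟨s.1.z (nrm s), s.1.m, by rw [Face.lo_apply]; ring⟩
    s_eq := fun s => by
      rw [icc_eq, icc_eq]
      exact sq_eq s.2.1 (hnrm s) (sm s).2 (sp s).2 (hsm s) (hsp s)
    lfS := by
      refine LF.of_inj hLF (fun s => ⟨s.1, s.2.1⟩) (fun p q h => ?_) fun s => subset_rfl
      exact Subtype.ext (Subtype.mk.inj h)
    sqo_edge := fun s x h1 h2 e hxe => by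
      rw [hE] at hxe
      have h3 := (s.2.1.frontier e.2.1 (hsqo s x h1 h2) hxe).1
      -- the edge has two normals, the square only one
      obtain ⟨j, hj, hj'⟩ : ∃ j, j ≠ dir e ∧ j ≠ nrm s := by
        have : ∀ p q : Fin 3, ∃ j, j ≠ p ∧ j ≠ q := by decide
        exact this _ _
      have h4 := h3 j (Face.E_n (hdir e) hj)
      rw [Face.S_t (hnrm s) hj'] at h4
      exact absurd h4 (by simp)
    sq_bd := fun s x hx ⟨k, hk, hxk⟩ => by
      obtain ⟨κ, hκ, hxκ⟩ := exists_cell hρ v (s.2.1.cl_sub hρ hx)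
      have h1 : κ.n (nrm s) = true :=
        (hκ.frontier s.2.1 hxκ hx).1 _ (Face.S_n (hnrm s))
      have h2 : κ.n k = true := by
        rcases hxk with h | h
        · exact normal_of_lo hκ s.2.1 hxκ hx h
        · exact normal_of_hi hκ s.2.1 hxκ hx h
      by_cases hV : κ.IsV
      · -- an edge in the third direction, inside the square
        obtain ⟨l, hl1, hl2, hl3⟩ : ∃ l, l ≠ nrm s ∧ l ≠ k ∧ ∀ j, j ≠ l → j = nrm s ∨ j = k := by
          have : ∀ p q : Fin 3, q ≠ p → ∃ l, l ≠ p ∧ l ≠ q ∧ ∀ j, j ≠ l → j = p ∨ j = q := by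
            decide
          exact this _ _ hk
        rw [Face.ri_of_V hV, mem_singleton_iff] at hxκ
        have hcl := Face.mem_cl.1 hx
        obtain ⟨ε, e1, e2, e3, e4⟩ := hκ.exists_edge hρ hV s.2.1 (hxκ ▸ hx)
          (Face.S_t (hnrm s) hl1) (fun j hj => by
            rw [← hxκ]
            rcases hl3 j hj with h | h
            · left
              have := hcl j
              rw [h, Face.hi_of (Face.S_n (hnrm s))] at this
              rw [h]
              exact le_antisymm this.2 this.1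
            · rw [h]; exact hxk)
        refine ⟨⟨ε, e1, l, e2⟩, ?_, ?_⟩
        · rw [hE]; exact e4
        · rw [hE, hxκ]; exact e3
      · -- the cell of the point is an edge
        simp only [Face.IsV, not_forall, Bool.not_eq_true] at hV
        obtain ⟨l, hl⟩ := hV
        have hκE : κ.IsE l := by
          intro j
          refine ⟨fun hj hjl => ?_, fun hj => ?_⟩
          · rw [hjl, hl] at hj; exact absurd hj (by simp)
          · have g1 : nrm s ≠ l := fun h => by rw [h, hl] at h1; exact absurd h1 (by simp)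
            have g2 : k ≠ l := fun h => by rw [h, hl] at h2; exact absurd h2 (by simp)
            have : j = nrm s ∨ j = k := by
              have : ∀ p q l j : Fin 3, q ≠ p → p ≠ l → q ≠ l → j ≠ l → j = p ∨ j = q := by
                decide
              exact this _ _ _ _ hk g1 g2 hj
            rcases this with h | h
            · rw [h, h1]
            · rw [h, h2]
        refine ⟨⟨κ, hκ, l, hκE⟩, ?_, ?_⟩
        · rw [hE]; exact (hκ.frontier s.2.1 hxκ hx).2.1
        · rw [hE]; exact Face.ri_sub_cl v κ hxκ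
    sqo_tile := fun s p x h1 h2 hxp => hsqt s p x (hsqo s x h1 h2) hxp
    sqo_disj := fun s s' hne x h1 h2 hx' => by
      have hx := hsqo s x h1 h2
      have h3 := s.2.1.frontier s'.2.1 hx hx'
      have h4 : nrm s' = nrm s := by
        by_contra hc
        have := h3.1 _ (Face.S_n (hnrm s'))
        rw [Face.S_t (hnrm s) hc] at this
        exact absurd this (by simp)
      refine hne (Subtype.ext (h3.2.2 ?_))
      funext j
      by_cases hj : j = nrm s
      · rw [hj, Face.S_n (hnrm s), ← h4, Face.S_n (hnrm s')]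
      · rw [Face.S_t (hnrm s) hj, Face.S_t (hnrm s') (by rw [h4]; exact hj)]
    face_cover := fun p x hx ⟨k, hk⟩ hno => by
      obtain ⟨κ, hκ, hxκ⟩ := exists_cell hρ v (x := x) (tile_sub hρ p.2 (by
        rw [← icc_eq]; exact hx))
      have h1 := hnt p k hκ hxκ hx hk
      have hS : κ.IsS k := by
        intro j
        refine ⟨fun hj => ?_, fun hj => by rw [hj, h1]⟩
        by_contra hjk
        obtain ⟨e, he⟩ := hmem hκ j k hjk hj h1 hxκ
        exact hno e he
      have hn : nrm ⟨κ, hκ, k, hS⟩ = k := ((hS _).1 (Face.S_n (hnrm ⟨κ, hκ, k, hS⟩)))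
      have hri := (Face.S_mem_ri (hnrm ⟨κ, hκ, k, hS⟩)).1 hxκ
      exact ⟨⟨κ, hκ, k, hS⟩, hsqt _ p x hxκ hx, hri.1, hri.2⟩ }, ?_, ?_⟩
  · intro m z h
    exact ⟨⟨(m, z), h⟩, icc_eq v (m, z)⟩
  · intro p
    exact ⟨p.1.1, p.1.2, p.2, icc_eq v p.1⟩

end P073.TM
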