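import Vale.Agent.P073.TM907.Cells

/-!
# P073, block TM: separation of the boxes around the cells, local finiteness
-/

open Set Metric Topology Filter

namespace P073.TM

open Vale.Agent.P073.St (V)
open P073.Net (SizeFn dyc dyo Adm IsTile)

variable {Λ : Set V} {ρ : V → ℝ} {v x : V} {σ τ κ : Face}

namespace Face

theorem mem_box {r : ℝ} : x ∈ σ.box v r ↔ ∀ k, σ.lo v k - r ≤ x k ∧ x k ≤ σ.hi v k + r := Iff.rfl

theorem box_mono {r r' : ℝ} (h : r ≤ r') : σ.box v r ⊆ σ.box v r' := fun x hx k =>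
  ⟨by linarith [(hx k).1], by linarith [(hx k).2]⟩

theorem cl_sub_box {r : ℝ} (hr : 0 ≤ r) : σ.cl v ⊆ σ.box v r := fun x hx k =>
  ⟨by linarith [(mem_cl.1 hx k).1], by linarith [(mem_cl.1 hx k).2]⟩

theorem isClosed_box (v : V) (σ : Face) (r : ℝ) : IsClosed (σ.box v r) := by
  have : σ.box v r = Icc (fun k => σ.lo v k - r) (fun k => σ.hi v k + r) := by
    ext x
    rw [mem_Icc, Pi.le_def, Pi.le_def]
    exact ⟨fun h => ⟨fun k => (h k).1, fun k => (h k).2⟩, fun h k => ⟨h.1 k, h.2 k⟩⟩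
  rw [this]
  exact isClosed_Icc

theorem mem_box_of_dist {p : V} {r : ℝ} (hp : p ∈ σ.cl v) (h : ‖x - p‖ ≤ r) : x ∈ σ.box v r := by
  intro k
  have h1 := mem_cl.1 hp k
  have h2 := (norm_le_pi_norm (x - p) k).trans h
  rw [Real.norm_eq_abs, abs_le, Pi.sub_apply] at h2
  exact ⟨by linarith [h2.1, h1.1], by linarith [h2.2, h1.2]⟩

/-- the nearest point of the closed face -/
noncomputable def near (v : V) (σ : Face) (x : V) : V :=
  fun k => max (σ.lo v k) (min (σ.hi v k) (x k))

theorem near_mem (v : V) (σ : Face) (x : V) : σ.near v x ∈ σ.cl v :=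
  mem_cl.2 fun k => ⟨le_max_left _ _, max_le (lo_le_hi v σ k) (min_le_left _ _)⟩

theorem norm_sub_near {r : ℝ} (hr : 0 ≤ r) (hx : x ∈ σ.box v r) : ‖x - σ.near v x‖ ≤ r := by
  rw [pi_norm_le_iff_of_nonneg hr]
  intro k
  have h1 := hx k
  have h2 := lo_le_hi v σ k
  rw [Pi.sub_apply, Real.norm_eq_abs, near, abs_le]
  rcases le_total (x k) (σ.hi v k) with h3 | h3
  · rw [min_eq_right h3]
    rcases le_total (σ.lo v k) (x k) with h4 | h4
    · rw [max_eq_right h4]
      exact ⟨by linarith, by linarith⟩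
    · rw [max_eq_left h4]
      exact ⟨by linarith [h1.1], by linarith⟩
  · rw [min_eq_left h3, max_eq_right h2]
    exact ⟨by linarith, by linarith [h1.2]⟩

/-- two closed faces without a common point are separated in a coordinate -/
theorem exists_sep (h : σ.cl v ∩ τ.cl v = ∅) : ∃ k, σ.hi v k < τ.lo v k ∨ τ.hi v k < σ.lo v k := by
  by_contra hc
  push Not at hc
  have h1 : (fun k => max (σ.lo v k) (τ.lo v k)) ∈ σ.cl v ∩ τ.cl v :=
    ⟨mem_cl.2 fun k => ⟨le_max_left _ _, max_le (lo_le_hi v σ k) (hc k).1⟩,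
      mem_cl.2 fun k => ⟨le_max_right _ _, max_le (hc k).2 (lo_le_hi v τ k)⟩⟩
  rw [h] at h1
  exact h1

theorem exists_hi_eq (v : V) (σ : Face) (k : Fin 3) : ∃ a : ℤ, σ.hi v k = v k + a / 2 ^ σ.m := by
  cases h : σ.n k with
  | true => exact ⟨σ.z k, by rw [hi_of h, lo_apply]⟩
  | false => exact ⟨σ.z k + 1, by rw [hi_of' h]; push_cast; rfl⟩

theorem gap {M : ℕ} (h1 : σ.m ≤ M) (h2 : τ.m ≤ M) {k : Fin 3} (h : σ.hi v k < τ.lo v k) :
    σ.hi v k + 1 / 2 ^ M ≤ τ.lo v k := by
  obtain ⟨a, ha⟩ := exists_hi_eq v σ k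
  rw [ha, lo_apply] at h ⊢
  have := coarse_gap (a := a) (b := τ.z k) h1 h2 (by linarith)
  linarith

theorem rad_le (σ : Face) : σ.rad ≤ σ.sd / 64 := by
  have := σ.sd_pos
  unfold rad
  split_ifs
  · exact le_rfl
  · linarith

theorem rad_pos (σ : Face) : 0 < σ.rad := by
  have := σ.sd_pos
  unfold rad
  split_ifs <;> positivity

theorem rad_of_V (h : σ.IsV) : σ.rad = σ.sd / 64 := by
  unfold rad; rw [if_pos h]

theorem not_IsV_of_IsE {k : Fin 3} (h : σ.IsE k) : ¬ σ.IsV := by
  intro h'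
  exact ((h k).1 (h' k)) rfl

theorem rad_of_E {k : Fin 3} (h : σ.IsE k) : σ.rad = σ.sd / 1024 := by
  unfold rad; rw [if_neg (not_IsV_of_IsE h)]

theorem hi_of_V (h : σ.IsV) (k : Fin 3) : σ.hi v k = σ.lo v k := hi_of (h k)

/-- a closed vertex is a point -/
theorem cl_of_V (h : σ.IsV) : σ.cl v = {σ.lo v} := by
  ext x
  rw [mem_cl, mem_singleton_iff]
  constructor
  · intro hx
    funext k
    have := hx k
    rw [hi_of_V h] at this
    exact le_antisymm this.2 this.1
  · rintro rfl k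
    exact ⟨le_rfl, lo_le_hi v σ k⟩

theorem ri_of_V (h : σ.IsV) : σ.ri v = {σ.lo v} := by
  apply Subset.antisymm
  · rw [← cl_of_V h]; exact ri_sub_cl v σ
  · rintro x rfl k
    rw [if_pos (h k)]

theorem E_n {k j : Fin 3} (h : σ.IsE k) (hj : j ≠ k) : σ.n j = true := (h j).2 hj

theorem E_t {k : Fin 3} (h : σ.IsE k) : σ.n k = false := by
  rw [← Bool.not_eq_true]
  intro h1
  exact (h k).1 h1 rfl

end Face

namespace IsCell

/-- near a cell the size function is comparable to the side -/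
theorem rho_box (hρ : SizeFn Λ ρ) (hσ : IsCell ρ v σ) {r : ℝ} (hr : r ≤ σ.sd / 64)
    (hx : x ∈ σ.box v r) : σ.sd - σ.sd / 64 ≤ ρ x ∧ ρ x ≤ 4 * σ.sd + σ.sd / 64 := by
  have hs := σ.sd_pos
  have h1 := Face.norm_sub_near (show (0:ℝ) ≤ σ.sd / 64 by positivity) (Face.box_mono hr hx)
  obtain ⟨h2, h3⟩ := hσ.rho_bounds hρ (Face.near_mem v σ x)
  have h4 := hρ.lip x (σ.near v x)
  have h5 := hρ.lip (σ.near v x) x
  rw [norm_sub_rev] at h5
  constructor <;> linarith

theorem box_sub (hρ : SizeFn Λ ρ) (hσ : IsCell ρ v σ) {r : ℝ} (hr : r ≤ σ.sd / 64) :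
    σ.box v r ⊆ Λ := by
  intro x hx
  by_contra hc
  have h1 := (hσ.rho_box hρ hr hx).1
  have h2 := hρ.off x hc
  have := σ.sd_pos
  linarith

theorem level_box (hρ : SizeFn Λ ρ) (hσ : IsCell ρ v σ) (hτ : IsCell ρ v τ) {r r' : ℝ}
    (hr : r ≤ σ.sd / 64) (hr' : r' ≤ τ.sd / 64) (hx : x ∈ σ.box v r) (hx' : x ∈ τ.box v r') :
    τ.m ≤ σ.m + 2 := by
  have h1 := (hσ.rho_box hρ hr hx).1
  have h2 := (hτ.rho_box hρ hr' hx').2
  have h3 := τ.sd_pos
  have h4 : σ.sd ≤ 5 * τ.sd := by linarith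
  unfold Face.sd at h4
  exact pow_le_of (C := 5) (by norm_num) h4

/-- **(T4)** the boxes around disjoint cells are disjoint -/
theorem nonempty_inter (hρ : SizeFn Λ ρ) (hσ : IsCell ρ v σ) (hτ : IsCell ρ v τ) {r r' : ℝ}
    (hr : r ≤ σ.sd / 64) (hr' : r' ≤ τ.sd / 64) (hx : x ∈ σ.box v r) (hx' : x ∈ τ.box v r') :
    (σ.cl v ∩ τ.cl v).Nonempty := by
  by_contra hne
  rw [not_nonempty_iff_eq_empty] at hne
  have l1 := hσ.level_box hρ hτ hr hr' hx hx'
  have l2 := hτ.level_box hρ hσ hr' hr hx' hx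
  set M := max σ.m τ.m with hM
  have hM1 : σ.m ≤ M := le_max_left _ _
  have hM2 : τ.m ≤ M := le_max_right _ _
  have key : ∀ m : ℕ, M ≤ m + 2 → (1:ℝ) / 2 ^ m ≤ 4 * (1 / 2 ^ M) := by
    intro m hm
    have h1 : (2:ℝ) ^ M ≤ 2 ^ (m + 2) := pow_le_pow_right₀ (by norm_num) hm
    rw [pow_add] at h1
    have h2 : (0:ℝ) < 2 ^ M := by positivity
    have h3 : (0:ℝ) < 2 ^ m := by positivity
    rw [mul_one_div, div_le_div_iff₀ h3 h2]
    linarith
  have k1 : σ.sd ≤ 4 * (1 / 2 ^ M) := key _ (by omega)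
  have k2 : τ.sd ≤ 4 * (1 / 2 ^ M) := key _ (by omega)
  have hp : (0:ℝ) < 1 / 2 ^ M := by positivity
  obtain ⟨k, hk | hk⟩ := Face.exists_sep hne
  · have h1 := Face.gap hM1 hM2 hk
    have h2 := (hx k).2
    have h3 := (hx' k).1
    linarith
  · have h1 := Face.gap hM2 hM1 hk
    have h2 := (hx' k).2
    have h3 := (hx k).1
    linarith

/-- two different edges meet in at most one point, a vertex -/
theorem edges_meet {k l : Fin 3} (hρ : SizeFn Λ ρ) (hσ : IsCell ρ v σ) (hτ : IsCell ρ v τ)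
    (hσE : σ.IsE k) (hτE : τ.IsE l) (hne : σ ≠ τ) {p : V} (hp : p ∈ σ.cl v ∩ τ.cl v) :
    ∃ κ, IsCell ρ v κ ∧ κ.IsV ∧ κ.lo v = p ∧ σ.cl v ∩ τ.cl v = {p} := by
  -- the cell of a common point is a vertex
  have key : ∀ q ∈ σ.cl v ∩ τ.cl v, ∃ κ, IsCell ρ v κ ∧ κ.IsV ∧ κ.lo v = q := by
    intro q hq
    obtain ⟨κ, hκ, hqκ⟩ := exists_cell hρ v (hσ.cl_sub hρ hq.1)
    have h1 := hκ.frontier hσ hqκ hq.1
    have h2 := hκ.frontier hτ hqκ hq.2
    have hV : κ.IsV := by
      intro j
      by_contra hj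
      rw [Bool.not_eq_true] at hj
      -- only `k` (and only `l`) can be a tangential direction
      have hjk : j = k := by
        by_contra hjk
        rw [h1.1 j (Face.E_n hσE hjk)] at hj
        exact absurd hj (by simp)
      have hjl : j = l := by
        by_contra hjl
        rw [h2.1 j (Face.E_n hτE hjl)] at hj
        exact absurd hj (by simp)
      have e1 : κ.n = σ.n := by
        funext i
        by_cases hi : i = k
        · rw [hi, Face.E_t hσE, ← hjk, hj]
        · rw [Face.E_n hσE hi, h1.1 i (Face.E_n hσE hi)]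
      have e2 : κ.n = τ.n := by
        funext i
        by_cases hi : i = l
        · rw [hi, Face.E_t hτE, ← hjl, hj]
        · rw [Face.E_n hτE hi, h2.1 i (Face.E_n hτE hi)]
      exact hne ((h1.2.2 e1).symm.trans (h2.2.2 e2))
    refine ⟨κ, hκ, hV, ?_⟩
    rw [Face.ri_of_V hV, mem_singleton_iff] at hqκ
    exact hqκ.symm
  obtain ⟨κ, hκ, hV, hκp⟩ := key p hp
  refine ⟨κ, hκ, hV, hκp, ?_⟩
  apply Subset.antisymm _ (singleton_subset_iff.2 hp)
  intro q hq
  rw [mem_singleton_iff]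
  by_contra hqp
  -- the midpoint is in the relative interior of `σ`
  have hmid : (fun j => (p j + q j) / 2 : V) ∈ σ.cl v ∩ τ.cl v := by
    constructor
    · refine Face.mem_cl.2 fun j => ?_
      have h1 := Face.mem_cl.1 hp.1 j
      have h2 := Face.mem_cl.1 hq.1 j
      constructor <;> linarith [h1.1, h1.2, h2.1, h2.2]
    · refine Face.mem_cl.2 fun j => ?_
      have h1 := Face.mem_cl.1 hp.2 j
      have h2 := Face.mem_cl.1 hq.2 j
      constructor <;> linarith [h1.1, h1.2, h2.1, h2.2]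
  have hri : (fun j => (p j + q j) / 2 : V) ∈ σ.ri v := by
    have hoff : ∀ j ≠ k, p j = σ.lo v j ∧ q j = σ.lo v j := by
      intro j hj
      have h1 := Face.mem_cl.1 hp.1 j
      have h2 := Face.mem_cl.1 hq.1 j
      rw [Face.hi_of (Face.E_n hσE hj)] at h1 h2
      exact ⟨le_antisymm h1.2 h1.1, le_antisymm h2.2 h2.1⟩
    intro j
    by_cases hj : j = k
    · subst hj
      rw [if_neg (by simp [Face.E_t hσE])]
      have h1 := Face.mem_cl.1 hp.1 j
      have h2 := Face.mem_cl.1 hq.1 j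
      have hpq : p j ≠ q j := by
        intro he
        apply hqp
        funext i
        by_cases hi : i = j
        · rw [hi, he]
        · rw [(hoff i hi).1, (hoff i hi).2]
      rcases lt_or_gt_of_ne hpq with h3 | h3 <;> constructor <;>
        linarith [h1.1, h1.2, h2.1, h2.2]
    · rw [if_pos (Face.E_n hσE hj)]
      show (p j + q j) / 2 = σ.lo v j
      rw [(hoff j hj).1, (hoff j hj).2]; ring
  obtain ⟨κ', hκ', hV', hκp'⟩ := key _ hmid
  have h1 := (hκ'.unique hσ (x := fun j => (p j + q j) / 2) (by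
    rw [Face.ri_of_V hV', mem_singleton_iff, hκp']) hri)
  rw [h1] at hV'
  exact Face.not_IsV_of_IsE hσE hV'

/-- **(T4)** the beams of two different edges meet only inside the box of a common vertex -/
theorem edge_edge {k l : Fin 3} (hρ : SizeFn Λ ρ) (hσ : IsCell ρ v σ) (hτ : IsCell ρ v τ)
    (hσE : σ.IsE k) (hτE : τ.IsE l) (hne : σ ≠ τ) {c : ℝ} (hc0 : 0 ≤ c) (hc1 : c ≤ 1)
    (hx : x ∈ σ.box v (c * σ.rad)) (hx' : x ∈ τ.box v (c * τ.rad)) :
    ∃ κ, IsCell ρ v κ ∧ κ.IsV ∧ σ.cl v ∩ τ.cl v = {κ.lo v} ∧ x ∈ κ.box v (c * κ.rad / 4) := by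
  have hcr : ∀ σ : Face, c * σ.rad ≤ σ.sd / 64 := fun σ =>
    (mul_le_of_le_one_left σ.rad_pos.le hc1).trans σ.rad_le
  obtain ⟨p, hp⟩ := hσ.nonempty_inter hρ hτ (hcr σ) (hcr τ) hx hx'
  obtain ⟨κ, hκ, hV, hκp, hint⟩ := hσ.edges_meet hρ hτ hσE hτE hne hp
  refine ⟨κ, hκ, hV, by rw [hint, hκp], ?_⟩
  -- radii
  have hrad : ∀ {σ : Face} {k : Fin 3}, IsCell ρ v σ → σ.IsE k → p ∈ σ.cl v →
      c * σ.rad ≤ c * κ.rad / 4 := by
    intro σ k hσ hσE hpσ
    have h1 := hσ.level_le_add hρ hκ (x := p) hpσ (by rw [Face.cl_of_V hV, hκp]; exact rfl)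
    have h2 : σ.sd ≤ 4 * κ.sd := by
      unfold Face.sd
      have h1 : (2:ℝ) ^ κ.m ≤ 2 ^ (σ.m + 2) := pow_le_pow_right₀ (by norm_num) h1
      rw [pow_add] at h1
      have h2 : (0:ℝ) < 2 ^ κ.m := by positivity
      have h3 : (0:ℝ) < 2 ^ σ.m := by positivity
      rw [mul_one_div, div_le_div_iff₀ h3 h2]
      nlinarith
    rw [Face.rad_of_E hσE, Face.rad_of_V hV]
    nlinarith
  have r1 := hrad hσ hσE hp.1
  have r2 := hrad hτ hτE hp.2
  have hplo : κ.lo v = p := hκp
  rw [Face.mem_box]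
  intro j
  rw [Face.hi_of_V hV, hplo]
  by_cases hjk : j = k
  · by_cases hjl : j = l
    · subst hjk
      subst hjl
      have hs := σ.sd_pos
      have ht := τ.sd_pos
      have hp1 := Face.mem_cl.1 hp.1
      have hp2 := Face.mem_cl.1 hp.2
      have u1 : Function.update p j (max (σ.lo v j) (τ.lo v j)) = p := by
        have : Function.update p j (max (σ.lo v j) (τ.lo v j)) ∈ σ.cl v ∩ τ.cl v := by
          constructor
          · refine Face.mem_cl.2 fun i => ?_
            by_cases hi : i = j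
            · subst hi
              rw [Function.update_self]
              exact ⟨le_max_left _ _, max_le (Face.lo_le_hi v σ i)
                ((hp2 i).1.trans (hp1 i).2)⟩
            · rw [Function.update_of_ne hi]; exact hp1 i
          · refine Face.mem_cl.2 fun i => ?_
            by_cases hi : i = j
            · subst hi
              rw [Function.update_self]
              exact ⟨le_max_right _ _, max_le ((hp1 i).1.trans (hp2 i).2)
                (Face.lo_le_hi v τ i)⟩
            · rw [Function.update_of_ne hi]; exact hp2 i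
        rw [hint] at this
        exact this
      have u2 : Function.update p j (min (σ.hi v j) (τ.hi v j)) = p := by
        have : Function.update p j (min (σ.hi v j) (τ.hi v j)) ∈ σ.cl v ∩ τ.cl v := by
          constructor
          · refine Face.mem_cl.2 fun i => ?_
            by_cases hi : i = j
            · subst hi
              rw [Function.update_self]
              exact ⟨le_min (Face.lo_le_hi v σ i) ((hp1 i).1.trans (hp2 i).2),
                min_le_left _ _⟩
            · rw [Function.update_of_ne hi]; exact hp1 i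
          · refine Face.mem_cl.2 fun i => ?_
            by_cases hi : i = j
            · subst hi
              rw [Function.update_self]
              exact ⟨le_min ((hp2 i).1.trans (hp1 i).2) (Face.lo_le_hi v τ i),
                min_le_right _ _⟩
            · rw [Function.update_of_ne hi]; exact hp2 i
        rw [hint] at this
        exact this
      have w1 : max (σ.lo v j) (τ.lo v j) = p j := by
        have := congrFun u1 j
        rwa [Function.update_self] at this
      have w2 : min (σ.hi v j) (τ.hi v j) = p j := by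
        have := congrFun u2 j
        rwa [Function.update_self] at this
      have hσh := Face.hi_of_sd (v := v) (Face.E_t hσE)
      have hτh := Face.hi_of_sd (v := v) (Face.E_t hτE)
      have b1 := hx j
      have b2 := hx' j
      rcases le_total (τ.lo v j) (σ.lo v j) with h1 | h1
      · rw [max_eq_left h1] at w1
        have h2 : τ.hi v j = p j := by
          rcases min_choice (σ.hi v j) (τ.hi v j) with h | h
          · rw [h] at w2; linarith
          · rw [h] at w2; exact w2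
        constructor <;> linarith [b1.1, b2.2]
      · rw [max_eq_right h1] at w1
        have h2 : σ.hi v j = p j := by
          rcases min_choice (σ.hi v j) (τ.hi v j) with h | h
          · rw [h] at w2; exact w2
          · rw [h] at w2; linarith
        constructor <;> linarith [b1.2, b2.1]
    · have h1 := hx' j
      have h2 := Face.mem_cl.1 hp.2 j
      rw [Face.hi_of (Face.E_n hτE hjl)] at h1 h2
      constructor <;> linarith [h1.1, h1.2, h2.1, h2.2]
  · have h1 := hx j
    have h2 := Face.mem_cl.1 hp.1 j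
    rw [Face.hi_of (Face.E_n hσE hjk)] at h1 h2
    constructor <;> linarith [h1.1, h1.2, h2.1, h2.2]

theorem eq_of_lo_eq (hσ : IsCell ρ v σ) (hτ : IsCell ρ v τ) (h : σ.IsV) (h' : τ.IsV)
    (he : σ.lo v = τ.lo v) : σ = τ := by
  apply hσ.unique hτ (x := σ.lo v)
  · rw [Face.ri_of_V h]; rfl
  · rw [Face.ri_of_V h', he]; rfl

/-- **(T4)** the boxes of two different vertices are disjoint -/
theorem vertex_vertex (hρ : SizeFn Λ ρ) (hσ : IsCell ρ v σ) (hτ : IsCell ρ v τ) (h : σ.IsV)
    (h' : τ.IsV) (hne : σ ≠ τ) {r r' : ℝ} (hr : r ≤ σ.rad) (hr' : r' ≤ τ.rad) :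
    Disjoint (σ.box v r) (τ.box v r') := by
  rw [Set.disjoint_left]
  intro x hx hx'
  obtain ⟨p, hp, hp'⟩ := hσ.nonempty_inter hρ hτ (hr.trans σ.rad_le) (hr'.trans τ.rad_le) hx hx'
  rw [Face.cl_of_V h, mem_singleton_iff] at hp
  rw [Face.cl_of_V h', mem_singleton_iff] at hp'
  exact hne (hσ.eq_of_lo_eq hτ h h' (hp.symm.trans hp'))

/-- **(T4)** if the box of a vertex meets the beam of an edge, the vertex is an end of the edge -/
theorem vertex_edge (hρ : SizeFn Λ ρ) (hσ : IsCell ρ v σ) (hτ : IsCell ρ v τ) (h : σ.IsV)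
    {r r' : ℝ} (hr : r ≤ σ.rad) (hr' : r' ≤ τ.rad) (hx : x ∈ σ.box v r) (hx' : x ∈ τ.box v r') :
    σ.lo v ∈ τ.cl v := by
  obtain ⟨p, hp, hp'⟩ := hσ.nonempty_inter hρ hτ (hr.trans σ.rad_le) (hr'.trans τ.rad_le) hx hx'
  rw [Face.cl_of_V h, mem_singleton_iff] at hp
  rwa [← hp]

/-- a vertex on a closed edge is one of its ends -/
theorem end_of_edge {k : Fin 3} (hσ : IsCell ρ v σ) (hτ : IsCell ρ v τ) (h : σ.IsV)
    (hτE : τ.IsE k) (hmem : σ.lo v ∈ τ.cl v) : σ.lo v = τ.lo v ∨ σ.lo v = τ.hi v := by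
  have hk : σ.lo v k = τ.lo v k ∨ σ.lo v k = τ.hi v k := by
    by_contra hc
    push Not at hc
    have h1 := Face.mem_cl.1 hmem k
    have hri : σ.lo v ∈ τ.ri v := by
      intro j
      by_cases hj : j = k
      · subst hj
        rw [if_neg (by simp [Face.E_t hτE])]
        exact ⟨lt_of_le_of_ne h1.1 (Ne.symm hc.1), lt_of_le_of_ne h1.2 hc.2⟩
      · rw [if_pos (Face.E_n hτE hj)]
        have h2 := Face.mem_cl.1 hmem j
        rw [Face.hi_of (Face.E_n hτE hj)] at h2
        exact le_antisymm h2.2 h2.1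
    have := hσ.unique hτ (x := σ.lo v) (by rw [Face.ri_of_V h]; rfl) hri
    rw [this] at h
    exact Face.not_IsV_of_IsE hτE h
  have hoff : ∀ j ≠ k, σ.lo v j = τ.lo v j ∧ σ.lo v j = τ.hi v j := by
    intro j hj
    have h2 := Face.mem_cl.1 hmem j
    rw [Face.hi_of (Face.E_n hτE hj)] at h2
    have h3 := le_antisymm h2.2 h2.1
    exact ⟨h3, by rw [Face.hi_of (Face.E_n hτE hj)]; exact h3⟩
  rcases hk with hk | hk
  · left
    funext j
    by_cases hj : j = k
    · rw [hj, hk]
    · exact (hoff j hj).1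
  · right
    funext j
    by_cases hj : j = k
    · rw [hj, hk]
    · exact (hoff j hj).2

end IsCell

end P073.TM
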